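import Vale.Agent.P280.H224.Orb

/-! P280: exchange of weights along the orbit of a group of type `SL_2` (nef tangent bundle). -/

open DirectSum Vale.Agent.P280.T Vale.Agent.P280.H93

set_option linter.unusedSectionVars false

namespace Vale.Agent.P280.H224

variable {M : Type} [AddCommGroup M] [DecidableEq M] {R : Type} [CommRing R] [Algebra ℂ R]
variable {𝒜 : ℕ × M → Submodule ℂ R} [GradedAlgebra 𝒜]

theorem nmul_eq {a : M} {b : M →+ ℂ} (hb : b a = 2) {k : ℤ} (h : k • a = 0) : k = 0 := by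
  have h1 := congrArg b h
  rw [map_zsmul, hb, map_zero, zsmul_eq_mul] at h1
  have h2 := (mul_eq_zero.1 h1).resolve_right two_ne_zero
  exact_mod_cast h2

section curve
variable {y z : R →ₐ[ℂ] ℂ} {ν a : M} {E F : Derivation ℂ R R} {b : M →+ ℂ} {N : ℕ}

/-- The parametrised orbit. -/
theorem Orb.exists_curve (O : Orb 𝒜 y z ν a E F b N) (hb : b a = 2) :
    ∃ φ : R →ₐ[ℂ] MvPolynomial (Fin 2) ℂ,
      (∀ (d : ℕ) (m : M), ∀ h ∈ 𝒜 (d, m), z h = 0 → φ h = 0) ∧
      ∀ (d : ℕ) (m : M) (k : ℕ), k ≤ d * N → m = d • ν + k • a → ∀ h ∈ 𝒜 (d, m),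
        φ h = MvPolynomial.monomial (H644.ex (d * N - k) k) (z h) := by
  obtain ⟨φ, hφ⟩ := exists_algHom 𝒜 (fun i =>
      (MvPolynomial.monomial (H644.ex (i.1 * N - kk ν a i) (kk ν a i))).comp z.toLinearMap) (by
      have h1 : kk ν a (0 : ℕ × M) = 0 := kk_eq (d := 0) (m := 0) hb (by simp)
      change MvPolynomial.monomial (H644.ex ((0 : ℕ × M).1 * N - kk ν a 0) (kk ν a 0)) (z 1) = 1
      rw [h1, map_one]
      have h2 : H644.ex ((0 : ℕ × M).1 * N - 0) 0 = 0 := by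
        rw [Prod.fst_zero, Nat.zero_mul]
        ext i
        fin_cases i <;> simp
      rw [h2]
      rfl) (by
      rintro ⟨d, m⟩ ⟨d', m'⟩ x hx g hg
      change MvPolynomial.monomial (H644.ex ((d + d') * N - kk ν a (d + d', m + m'))
        (kk ν a (d + d', m + m'))) (z (x * g)) =
        MvPolynomial.monomial (H644.ex (d * N - kk ν a (d, m)) (kk ν a (d, m))) (z x) *
        MvPolynomial.monomial (H644.ex (d' * N - kk ν a (d', m')) (kk ν a (d', m'))) (z g)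
      rw [MvPolynomial.monomial_mul, map_mul]
      by_cases h1 : z x = 0
      · rw [h1, zero_mul, map_zero, map_zero]
      by_cases h2 : z g = 0
      · rw [h2, mul_zero, map_zero, map_zero]
      obtain ⟨k, hk, hk'⟩ := O.supp d m x hx h1
      obtain ⟨l, hl, hl'⟩ := O.supp d' m' g hg h2
      have h3 : m + m' = (d + d') • ν + (k + l) • a := by
        rw [hk', hl', add_smul, add_smul]
        abel
      rw [kk_eq hb hk', kk_eq hb hl', kk_eq hb h3, H644.ex_add]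
      have h4 : (d + d') * N - (k + l) = d * N - k + (d' * N - l) := by
        rw [add_mul]
        omega
      rw [h4])
  refine ⟨φ, fun d m h hh h0 => ?_, fun d m k _ hk h hh => ?_⟩
  · rw [hφ _ h hh]
    change MvPolynomial.monomial _ (z h) = 0
    rw [h0, map_zero]
  · rw [hφ _ h hh]
    change MvPolynomial.monomial (H644.ex (d * N - kk ν a (d, m)) (kk ν a (d, m))) (z h) = _
    rw [kk_eq hb hk]

/-- The two ends of the orbit. -/
theorem Orb.exists_ends (O : Orb 𝒜 y z ν a E F b N) (hX : IsTorusManifold 𝒜)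
    (hy0 : ¬ IsVertex 𝒜 y) (hy : IsFixed 𝒜 y ν) (hF : IsHField 𝒜 (-a) F) (hb : b a = 2) :
    (∃ f ∈ 𝒜 (1, ν), z f ≠ 0) ∧ ∃ f ∈ 𝒜 (1, ν + N • a), z f ≠ 0 := by
  obtain ⟨f, hf, hfne⟩ := exists_deg_one_ne hX.gen hy0 hy
  have hf' : z f ≠ 0 := by
    have h1 := O.zy 1 f (by rwa [one_smul])
    rwa [h1]
  refine ⟨⟨f, hf, hf'⟩, (⇑F)^[N] f, ?_, ?_⟩
  · have := iter_mem hF hf N
    rwa [smul_neg, sub_neg_eq_add] at this
  · have key : ∀ j : ℕ, j ≤ N → z ((⇑F)^[j] f) ≠ 0 := by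
      intro j
      induction j with
      | zero =>
        intro _
        exact hf'
      | succ j ih =>
        intro hj
        have hm := iter_mem hF hf j
        rw [Function.iterate_succ_apply', O.zF _ _ _ hm]
        refine mul_ne_zero ?_ (ih (by omega))
        have h1 : (b (ν - j • -a) - ((1 : ℕ) : ℂ) * b ν) / 2 = j := by
          rw [smul_neg, sub_neg_eq_add, map_add, map_nsmul, hb, nsmul_eq_mul]
          push_cast
          ring
        rw [h1, Nat.cast_one, one_mul, sub_ne_zero]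
        intro h0
        have h2 : N = j := by exact_mod_cast h0
        omega
    exact key N le_rfl

/-- The component of weight `χ` of a derivation along the curve, at the generic point. -/
theorem Orb.exists_tau (O : Orb 𝒜 y z ν a E F b N) (hb : b a = 2) (χ : M)
    {φ : R →ₐ[ℂ] MvPolynomial (Fin 2) ℂ}
    (hφ0 : ∀ (d : ℕ) (m : M), ∀ h ∈ 𝒜 (d, m), z h = 0 → φ h = 0)
    (hφ : ∀ (d : ℕ) (m : M) (k : ℕ), k ≤ d * N → m = d • ν + k • a → ∀ h ∈ 𝒜 (d, m),
      φ h = MvPolynomial.monomial (H644.ex (d * N - k) k) (z h))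
    {δ : R →ₗ[ℂ] MvPolynomial (Fin 2) ℂ} (hδ : ∀ x y, δ (x * y) = φ x * δ y + φ y * δ x) :
    ∃ τ : R →ₗ[ℂ] ℂ, IsTangent z τ ∧
      (∀ (d : ℕ) (m : M), ∀ h ∈ 𝒜 (d, m), τ h ≠ 0 →
        ∃ q : ℕ, q ≤ d * N ∧ m = d • ν + χ + q • a) ∧
      ∀ (d : ℕ) (m : M) (q : ℕ), q ≤ d * N → m = d • ν + χ + q • a → ∀ h ∈ 𝒜 (d, m),
        τ h = MvPolynomial.coeff (H644.ex (d * N - q) q) (δ h) := by
  classical
  let P : ℕ × M → Prop := fun i => ∃ q : ℕ, q ≤ i.1 * N ∧ i.2 = i.1 • ν + χ + q • a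
  set τ : R →ₗ[ℂ] ℂ := H644.tw 𝒜 fun i => if P i then
    (MvPolynomial.lcoeff ℂ (H644.ex (i.1 * N - kk ν a (i.1, i.2 - χ))
      (kk ν a (i.1, i.2 - χ)))).comp δ else 0 with hτ
  have h1 : ∀ (d : ℕ) (m : M) (q : ℕ), q ≤ d * N → m = d • ν + χ + q • a → ∀ h ∈ 𝒜 (d, m),
      τ h = MvPolynomial.coeff (H644.ex (d * N - q) q) (δ h) := by
    intro d m q hq hm h hh
    have hP : P (d, m) := ⟨q, hq, hm⟩
    have hk : kk ν a (d, m - χ) = q := kk_eq hb (by rw [hm]; abel)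
    rw [hτ, H644.tw_mem 𝒜 _ hh, if_pos hP]
    change MvPolynomial.coeff (H644.ex (d * N - kk ν a (d, m - χ)) (kk ν a (d, m - χ))) (δ h) = _
    rw [hk]
  have h2 : ∀ (d : ℕ) (m : M), (∀ q : ℕ, q ≤ d * N → m ≠ d • ν + χ + q • a) →
      ∀ h ∈ 𝒜 (d, m), τ h = 0 := by
    intro d m hq h hh
    have hP : ¬ P (d, m) := fun ⟨q, h3, h4⟩ => hq q h3 h4
    rw [hτ, H644.tw_mem 𝒜 _ hh, if_neg hP]
    rfl
  have h3 : ∀ (d : ℕ) (m : M), ∀ h ∈ 𝒜 (d, m), τ h ≠ 0 →
      ∃ q : ℕ, q ≤ d * N ∧ m = d • ν + χ + q • a := by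
    intro d m h hh hne
    by_contra hcon
    push Not at hcon
    exact hne (h2 d m hcon h hh)
  refine ⟨τ, ?_, h3, h1⟩
  have key : ∀ (d d' : ℕ) (m m' : M) (q : ℕ), q ≤ (d + d') * N →
      m + m' = (d + d') • ν + χ + q • a → ∀ x ∈ 𝒜 (d, m), ∀ g ∈ 𝒜 (d', m'),
      MvPolynomial.coeff (H644.ex ((d + d') * N - q) q) (φ x * δ g) = z x * τ g := by
    intro d d' m m' q hq hm x hx g hg
    by_cases hx0 : z x = 0
    · rw [hφ0 d m x hx hx0, hx0, zero_mul, zero_mul, MvPolynomial.coeff_zero]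
    obtain ⟨k, hk, hk'⟩ := O.supp d m x hx hx0
    have hdd : (d + d') * N = d * N + d' * N := add_mul _ _ _
    rw [hφ d m k hk hk' x hx, MvPolynomial.coeff_monomial_mul']
    by_cases hle : k ≤ q ∧ q - k ≤ d' * N
    · rw [if_pos (H644.ex_le.2 ⟨by omega, hle.1⟩), H644.ex_sub, h1 d' m' (q - k) hle.2 ?_ g hg]
      · congr 3
        omega
      · have e1 : (q - k) • a + k • a = q • a := by
          rw [← add_smul, Nat.sub_add_cancel hle.1]
        have e2 : m' = (d + d') • ν + χ + q • a - m := by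
          rw [← hm]
          abel
        rw [e2, hk', ← e1, add_smul]
        abel
    · rw [if_neg (fun h => hle ⟨(H644.ex_le.1 h).2, by have := (H644.ex_le.1 h).1; omega⟩)]
      by_cases hg0 : τ g = 0
      · rw [hg0, mul_zero]
      · exfalso
        obtain ⟨l, hl, hl'⟩ := h3 d' m' g hg hg0
        have e1 : k + l = q := by
          apply nsmul_inj hb
          rw [hk', hl', add_smul] at hm
          rw [add_smul]
          have e2 : d • ν + k • a + (d' • ν + χ + l • a) = d • ν + d' • ν + χ + (k • a + l • a) := by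
            abel
          rw [e2] at hm
          exact add_left_cancel hm
        exact hle ⟨by omega, by omega⟩
  have key0 : ∀ (d d' : ℕ) (m m' : M),
      (∀ q : ℕ, q ≤ (d + d') * N → m + m' ≠ (d + d') • ν + χ + q • a) → ∀ x ∈ 𝒜 (d, m),
      ∀ g ∈ 𝒜 (d', m'), z x * τ g = 0 := by
    intro d d' m m' hq x hx g hg
    by_contra hne
    obtain ⟨k, hk, hk'⟩ := O.supp d m x hx (left_ne_zero_of_mul hne)
    obtain ⟨l, hl, hl'⟩ := h3 d' m' g hg (right_ne_zero_of_mul hne)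
    refine hq (k + l) ?_ ?_
    · rw [add_mul]
      omega
    · rw [hk', hl', add_smul, add_smul]
      abel
  have hder : H644.IsDer z τ := by
    refine H644.isDer_of_hom (𝒜 := 𝒜) ?_
    rintro ⟨d, m⟩ ⟨d', m'⟩ x hx g hg
    have hxg : x * g ∈ 𝒜 (d + d', m + m') := SetLike.mul_mem_graded hx hg
    by_cases hcon : ∀ q : ℕ, q ≤ (d + d') * N → m + m' ≠ (d + d') • ν + χ + q • a
    · rw [h2 _ _ hcon _ hxg, key0 d d' m m' hcon x hx g hg, key0 d' d m' m (by
        intro q hq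
        rw [add_comm m' m, add_comm d' d]
        exact hcon q (by rwa [add_comm d' d] at hq)) g hg x hx, add_zero]
    · push Not at hcon
      obtain ⟨q, hq, hq'⟩ := hcon
      rw [h1 _ _ q hq hq' _ hxg, hδ, MvPolynomial.coeff_add, key d d' m m' q hq hq' x hx g hg]
      have h4 := key d' d m' m q (by rwa [add_comm d' d]) (by rw [add_comm m' m, add_comm d' d, hq'])
        g hg x hx
      rw [add_comm d' d] at h4
      rw [h4]
  exact hder

end curve

section spaces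

/-- The regular sections of weight `ψ`, at the generic point of the orbit. -/
def Sec (𝒜 : ℕ × M → Submodule ℂ R) (z : R →ₐ[ℂ] ℂ) (ν a : M) (N : ℕ) (ψ : M) :
    Submodule ℂ (R →ₗ[ℂ] ℂ) where
  carrier := {τ | IsTangent z τ ∧ ∀ (d : ℕ) (m : M), ∀ h ∈ 𝒜 (d, m), τ h ≠ 0 →
    ∃ q : ℕ, q ≤ d * N ∧ m = d • ν + ψ + q • a}
  zero_mem' := by
    refine ⟨fun x y => ?_, fun d m h _ hne => absurd rfl hne⟩
    change (0 : ℂ) = z x * 0 + z y * 0
    ring
  add_mem' := by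
    rintro τ τ' ⟨h1, h2⟩ ⟨h3, h4⟩
    refine ⟨fun x y => ?_, fun d m h hh hne => ?_⟩
    · change τ (x * y) + τ' (x * y) = z x * (τ y + τ' y) + z y * (τ x + τ' x)
      rw [h1, h3]
      ring
    · by_cases h0 : τ h = 0
      · refine h4 d m h hh fun h0' => hne ?_
        change τ h + τ' h = 0
        rw [h0, h0', add_zero]
      · exact h2 d m h hh h0
  smul_mem' := by
    rintro c τ ⟨h1, h2⟩
    refine ⟨fun x y => ?_, fun d m h hh hne => ?_⟩
    · change c * τ (x * y) = z x * (c * τ y) + z y * (c * τ x)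
      rw [h1]
      ring
    · refine h2 d m h hh fun h0 => hne ?_
      change c * τ h = 0
      rw [h0, mul_zero]

/-- The operators, as operators of `R`. -/
noncomputable def opE (𝒜 : ℕ × M → Submodule ℂ R) [GradedAlgebra 𝒜] (ν : M)
    (E : Derivation ℂ R R) (b : M →+ ℂ) (κ : ℂ) : R →ₗ[ℂ] R :=
  H644.tw 𝒜 (fun i => ((b i.2 - i.1 * b ν) / 2 - κ / 2) • LinearMap.id) - (E : R →ₗ[ℂ] R)

noncomputable def opF (𝒜 : ℕ × M → Submodule ℂ R) [GradedAlgebra 𝒜] (ν : M)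
    (F : Derivation ℂ R R) (b : M →+ ℂ) (N : ℕ) (κ : ℂ) : R →ₗ[ℂ] R :=
  H644.tw 𝒜 (fun i => (i.1 * N - (b i.2 - i.1 * b ν) / 2 + κ / 2) • LinearMap.id) -
    (F : R →ₗ[ℂ] R)

variable {y z : R →ₐ[ℂ] ℂ} {ν a : M} {E F : Derivation ℂ R R} {b : M →+ ℂ} {N : ℕ}

theorem opE_mem {κ : ℂ} {d : ℕ} {m : M} {h : R} (hh : h ∈ 𝒜 (d, m)) :
    opE 𝒜 ν E b κ h = ((b m - d * b ν) / 2 - κ / 2) • h - E h := by
  rw [opE, LinearMap.sub_apply, H644.tw_mem 𝒜 _ hh]
  rfl

theorem opF_mem {κ : ℂ} {d : ℕ} {m : M} {h : R} (hh : h ∈ 𝒜 (d, m)) :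
    opF 𝒜 ν F b N κ h = (d * N - (b m - d * b ν) / 2 + κ / 2) • h - F h := by
  rw [opF, LinearMap.sub_apply, H644.tw_mem 𝒜 _ hh]
  rfl

theorem Orb.opE_sec (O : Orb 𝒜 y z ν a E F b N) (hE : IsHField 𝒜 a E) (hb : b a = 2) {ψ : M}
    {κ : ℂ} (hκ : b ψ = κ) {τ : R →ₗ[ℂ] ℂ} (hτ : τ ∈ Sec 𝒜 z ν a N ψ) :
    τ.comp (opE 𝒜 ν E b κ) ∈ Sec 𝒜 z ν a N (ψ + a) := by
  obtain ⟨h1, h2⟩ := hτ
  have hval : ∀ (d : ℕ) (m : M), ∀ h ∈ 𝒜 (d, m),
      τ.comp (opE 𝒜 ν E b κ) h = ((b m - d * b ν) / 2 - κ / 2) * τ h - τ (E h) := by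
    intro d m h hh
    rw [LinearMap.comp_apply, opE_mem hh, map_sub, map_smul, smul_eq_mul]
  refine ⟨?_, ?_⟩
  · have hder : H644.IsDer z (τ.comp (opE 𝒜 ν E b κ)) := by
      refine H644.isDer_of_hom (𝒜 := 𝒜) ?_
      rintro ⟨d, m⟩ ⟨d', m'⟩ x hx g hg
      have hxg : x * g ∈ 𝒜 (d + d', m + m') := SetLike.mul_mem_graded hx hg
      rw [hval _ _ _ hxg, hval _ _ _ hx, hval _ _ _ hg, E.leibniz, smul_eq_mul, smul_eq_mul,
        map_add τ, h1, h1, h1, O.zE _ _ _ hx, O.zE _ _ _ hg, map_add b]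
      push_cast
      ring
    exact hder
  · intro d m h hh hne
    rw [hval d m h hh] at hne
    by_cases h3 : τ (E h) = 0
    · rw [h3, sub_zero] at hne
      obtain ⟨q, hq, hq'⟩ := h2 d m h hh (right_ne_zero_of_mul hne)
      have h4 : (b m - d * b ν) / 2 - κ / 2 = q := by
        rw [hq', map_add, map_add, map_nsmul, map_nsmul, hb, hκ, nsmul_eq_mul, nsmul_eq_mul]
        ring
      have h5 : q ≠ 0 := by
        rintro rfl
        exact left_ne_zero_of_mul hne (by rw [h4, Nat.cast_zero])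
      obtain ⟨q, rfl⟩ := Nat.exists_eq_succ_of_ne_zero h5
      refine ⟨q, by omega, ?_⟩
      rw [hq', Nat.succ_eq_add_one, succ_nsmul]
      abel
    · obtain ⟨q, hq, hq'⟩ := h2 d _ _ (hE d m h hh) h3
      refine ⟨q, hq, ?_⟩
      rw [sub_eq_iff_eq_add] at hq'
      rw [hq']
      abel

theorem Orb.opF_sec (O : Orb 𝒜 y z ν a E F b N) (hF : IsHField 𝒜 (-a) F) (hb : b a = 2) {ψ : M}
    {κ : ℂ} (hκ : b ψ = κ) {τ : R →ₗ[ℂ] ℂ} (hτ : τ ∈ Sec 𝒜 z ν a N ψ) :
    τ.comp (opF 𝒜 ν F b N κ) ∈ Sec 𝒜 z ν a N (ψ - a) := by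
  obtain ⟨h1, h2⟩ := hτ
  have hval : ∀ (d : ℕ) (m : M), ∀ h ∈ 𝒜 (d, m), τ.comp (opF 𝒜 ν F b N κ) h =
      (d * N - (b m - d * b ν) / 2 + κ / 2) * τ h - τ (F h) := by
    intro d m h hh
    rw [LinearMap.comp_apply, opF_mem hh, map_sub, map_smul, smul_eq_mul]
  refine ⟨?_, ?_⟩
  · have hder : H644.IsDer z (τ.comp (opF 𝒜 ν F b N κ)) := by
      refine H644.isDer_of_hom (𝒜 := 𝒜) ?_
      rintro ⟨d, m⟩ ⟨d', m'⟩ x hx g hg
      have hxg : x * g ∈ 𝒜 (d + d', m + m') := SetLike.mul_mem_graded hx hg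
      rw [hval _ _ _ hxg, hval _ _ _ hx, hval _ _ _ hg, F.leibniz, smul_eq_mul, smul_eq_mul,
        map_add τ, h1, h1, h1, O.zF _ _ _ hx, O.zF _ _ _ hg, map_add b]
      push_cast
      ring
    exact hder
  · intro d m h hh hne
    rw [hval d m h hh] at hne
    by_cases h3 : τ (F h) = 0
    · rw [h3, sub_zero] at hne
      obtain ⟨q, hq, hq'⟩ := h2 d m h hh (right_ne_zero_of_mul hne)
      have h4 : (d * N - (b m - d * b ν) / 2 + κ / 2 : ℂ) = d * N - q := by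
        rw [hq', map_add, map_add, map_nsmul, map_nsmul, hb, hκ, nsmul_eq_mul, nsmul_eq_mul]
        ring
      have h5 : q ≠ d * N := by
        rintro rfl
        exact left_ne_zero_of_mul hne (by rw [h4]; push_cast; ring)
      refine ⟨q + 1, by omega, ?_⟩
      rw [hq', succ_nsmul]
      abel
    · have hFm : F h ∈ 𝒜 (d, m + a) := by
        have := hF d m h hh
        rwa [sub_neg_eq_add] at this
      obtain ⟨q, hq, hq'⟩ := h2 d _ _ hFm h3
      refine ⟨q, hq, ?_⟩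
      rw [← eq_sub_iff_add_eq] at hq'
      rw [hq']
      abel

/-- The commutation relation. -/
theorem op_comm (hE : IsHField 𝒜 a E) (hF : IsHField 𝒜 (-a) F) (hb : b a = 2) {c : ℂ}
    (hN : (N : ℂ) = -(b ν + c))
    (hH : ∀ (d : ℕ) (m : M), ∀ h ∈ 𝒜 (d, m), ⁅F, E⁆ h = (b m + c * d) • h) (κ : ℂ)
    (τ : R →ₗ[ℂ] ℂ) :
    (τ.comp (opE 𝒜 ν E b κ)).comp (opF 𝒜 ν F b N (κ + 2)) -
      (τ.comp (opF 𝒜 ν F b N κ)).comp (opE 𝒜 ν E b (κ - 2)) = (-κ) • τ := by
  apply linearMap_ext_graded 𝒜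
  rintro ⟨d, m⟩ h hh
  have hFm : F h ∈ 𝒜 (d, m + a) := by
    have := hF d m h hh
    rwa [sub_neg_eq_add] at this
  have hEm := hE d m h hh
  have h4 := hH d m h hh
  rw [Derivation.commutator_apply] at h4
  have h5 : τ (F (E h)) - τ (E (F h)) = (b m + c * d) * τ h := by
    rw [← map_sub, h4, map_smul, smul_eq_mul]
  simp only [LinearMap.sub_apply, LinearMap.comp_apply, LinearMap.smul_apply, opF_mem hh,
    opE_mem hh, opE_mem hFm, opF_mem hEm, map_sub, map_smul, smul_eq_mul, map_add, hb]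
  linear_combination (-1 : ℂ) * h5 + (-(d : ℂ) * τ h) * hN

/-- A tangent vector which vanishes in degree one is zero. -/
theorem tangent_eq_zero (hX : IsTorusManifold 𝒜) {z : R →ₐ[ℂ] ℂ} {τ : R →ₗ[ℂ] ℂ}
    (hτ : IsTangent z τ) (h1 : ∀ m, ∀ h ∈ 𝒜 (1, m), τ h = 0) : τ = 0 := by
  apply LinearMap.ext
  intro x
  have hx : x ∈ Algebra.adjoin ℂ {h : R | ∃ m : M, h ∈ 𝒜 (1, m)} := by
    rw [hX.gen]
    trivial
  have h11 : τ 1 = 0 := by
    have h2 := hτ 1 1
    rw [mul_one, map_one z, one_mul] at h2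
    exact left_eq_add.1 h2
  change τ x = 0
  induction hx using Algebra.adjoin_induction with
  | mem x hx =>
    obtain ⟨m, hm⟩ := hx
    exact h1 m x hm
  | algebraMap r => rw [Algebra.algebraMap_eq_smul_one, map_smul, h11, smul_zero]
  | add x y _ _ hx hy => rw [map_add, hx, hy, add_zero]
  | mul x y _ _ hx hy => rw [hτ, hx, hy, mul_zero, mul_zero, add_zero]

/-- The sections of very small weight vanish. -/
theorem sec_bdd (hX : IsTorusManifold 𝒜) (z : R →ₐ[ℂ] ℂ) (ν : M) (hb : b a = 2) (N : ℕ) (χ : M) :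
    ∃ J : ℤ, ∀ j : ℤ, j < J → ∀ τ ∈ Sec 𝒜 z ν a N (χ + j • a), τ = 0 := by
  obtain ⟨K, hK⟩ := re_bdd hX (-b)
  have hK' : ∀ (d : ℕ) (m : M), ∀ h ∈ 𝒜 (d, m), h ≠ 0 → -(b m).re ≤ d * K := by
    intro d m h hh hne
    have := hK d m h hh hne
    rwa [AddMonoidHom.neg_apply, Complex.neg_re] at this
  refine ⟨⌊(-K - (b ν).re - (b χ).re) / 2⌋ - N, fun j hj τ hτ => ?_⟩
  obtain ⟨h1, h2⟩ := hτ
  refine tangent_eq_zero hX h1 fun m h hh => ?_
  by_contra hne
  obtain ⟨q, hq, hq'⟩ := h2 1 m h hh hne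
  have h3 := hK' 1 m h hh (fun h0 => hne (by rw [h0, map_zero]))
  have h4 : (b m).re = (b ν).re + (b χ).re + 2 * j + 2 * q := by
    rw [hq', one_smul, map_add, map_add, map_add, map_zsmul, map_nsmul, hb, zsmul_eq_mul,
      nsmul_eq_mul]
    simp only [Complex.add_re, Complex.mul_re, Complex.intCast_re, Complex.intCast_im,
      Complex.natCast_re, Complex.natCast_im, zero_mul, sub_zero]
    have h2' : ((2 : ℂ)).re = 2 := by simp
    rw [h2']
    ring
  rw [one_mul] at hq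
  have h5 : j + q < ⌊(-K - (b ν).re - (b χ).re) / 2⌋ := by
    have : (q : ℤ) ≤ N := by exact_mod_cast hq
    omega
  have h6 : ((j + q : ℤ) : ℝ) + 1 ≤ ⌊(-K - (b ν).re - (b χ).re) / 2⌋ := by exact_mod_cast h5
  have h7 := Int.floor_le ((-K - (b ν).re - (b χ).re) / 2)
  rw [Nat.cast_one, one_mul] at h3
  push_cast at h6
  linarith

/-- The value at the fixed point of a section. -/
theorem Orb.exists_value (O : Orb 𝒜 y z ν a E F b N) (hy : IsFixed 𝒜 y ν) (hb : b a = 2) {ψ : M}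
    {τ : R →ₗ[ℂ] ℂ} (hτ : τ ∈ Sec 𝒜 z ν a N ψ) :
    ∃ w : R →ₗ[ℂ] ℂ, IsTangent y w ∧ HasWeight 𝒜 ν ψ w ∧
      ∀ (d : ℕ), ∀ h ∈ 𝒜 (d, d • ν + ψ), w h = τ h := by
  classical
  obtain ⟨h1, h2⟩ := hτ
  set w : R →ₗ[ℂ] ℂ := H644.tw 𝒜 fun i => if i.2 = i.1 • ν + ψ then τ else 0 with hw
  have e1 : ∀ (d : ℕ) (m : M), m = d • ν + ψ → ∀ h ∈ 𝒜 (d, m), w h = τ h := by
    intro d m hm h hh
    rw [hw, H644.tw_mem 𝒜 _ hh, if_pos hm]
  have e2 : ∀ (d : ℕ) (m : M), m ≠ d • ν + ψ → ∀ h ∈ 𝒜 (d, m), w h = 0 := by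
    intro d m hm h hh
    rw [hw, H644.tw_mem 𝒜 _ hh, if_neg hm]
    rfl
  have key : ∀ (d d' : ℕ) (m m' : M), m + m' = (d + d') • ν + ψ → ∀ x ∈ 𝒜 (d, m),
      ∀ g ∈ 𝒜 (d', m'), z x * τ g = y x * w g := by
    intro d d' m m' hm x hx g hg
    by_cases h0 : m = d • ν
    · subst h0
      rw [O.zy d x hx, e1 d' m' ?_ g hg]
      rw [add_smul, add_assoc] at hm
      exact add_left_cancel hm
    · have hy0 : y x = 0 := by
        by_contra hne
        exact h0 (hy d m x hx hne)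
      rw [hy0, zero_mul]
      by_contra hne
      obtain ⟨k, -, hk⟩ := O.supp d m x hx (left_ne_zero_of_mul hne)
      obtain ⟨q, -, hq⟩ := h2 d' m' g hg (right_ne_zero_of_mul hne)
      apply h0
      have h3 : (k + q) • a = 0 • a := by
        rw [hk, hq, add_smul] at hm
        have h4 : d • ν + k • a + (d' • ν + ψ + q • a) =
            d • ν + d' • ν + ψ + (k + q) • a := by
          rw [add_smul]
          abel
        rw [h4] at hm
        rw [zero_smul]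
        exact left_eq_add.1 hm.symm
      have h5 : k = 0 := by
        have := nsmul_inj hb h3
        omega
      rw [hk, h5, zero_smul, add_zero]
  have key0 : ∀ (d d' : ℕ) (m m' : M), m + m' ≠ (d + d') • ν + ψ → ∀ x ∈ 𝒜 (d, m),
      ∀ g ∈ 𝒜 (d', m'), y x * w g = 0 := by
    intro d d' m m' hm x hx g hg
    by_cases h0 : m' = d' • ν + ψ
    · by_contra hne
      have h3 := hy d m x hx (left_ne_zero_of_mul hne)
      apply hm
      rw [h3, h0, add_smul, add_assoc]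
    · rw [e2 d' m' h0 g hg, mul_zero]
  refine ⟨w, ?_, ?_, fun d h hh => e1 d _ rfl h hh⟩
  · have hder : H644.IsDer y w := by
      refine H644.isDer_of_hom (𝒜 := 𝒜) ?_
      rintro ⟨d, m⟩ ⟨d', m'⟩ x hx g hg
      have hxg : x * g ∈ 𝒜 (d + d', m + m') := SetLike.mul_mem_graded hx hg
      by_cases hm : m + m' = (d + d') • ν + ψ
      · rw [e1 _ _ hm _ hxg, h1, key d d' m m' hm x hx g hg,
          key d' d m' m (by rw [add_comm m' m, add_comm d' d, hm]) g hg x hx]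
      · rw [e2 _ _ hm _ hxg, key0 d d' m m' hm x hx g hg,
          key0 d' d m' m (by rw [add_comm m' m, add_comm d' d]; exact hm) g hg x hx, add_zero]
    exact hder
  · intro d m h hh hne
    by_contra hm
    exact hne (e2 d m hm h hh)

end spaces

/-- **Exchange.** `y` is a fixed point of the torus and of the one-parameter group of `F`, of
weight `-a`, the fields `E`, `F` of weights `±a` generate an algebra of type `sl_2`, and `T_X` is
nef. Then a tangent vector at `y` of weight `χ`, `⟨χ, a^∨⟩ < 0`, is the bracket of `F` with a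
tangent vector of weight `χ + a`. -/
theorem exch_vec (hX : IsTorusManifold 𝒜) (hnef : NefOnRationalCurves 𝒜) {y : R →ₐ[ℂ] ℂ}
    (hy0 : ¬ IsVertex 𝒜 y) {ν a : M} (hy : IsFixed 𝒜 y ν) {E F : Derivation ℂ R R}
    (hE : IsHField 𝒜 a E) (hF : IsHField 𝒜 (-a) F) {b : M →+ ℂ} {c : ℂ} (hb : b a = 2)
    (hH : ∀ (d : ℕ) (m : M), ∀ h ∈ 𝒜 (d, m), ⁅F, E⁆ h = (b m + c * d) • h)
    (hF0 : ∀ h, y (F h) = 0) {χ : M} {κ : ℤ} (hκ : b χ = κ) (hneg : κ < 0) {v : R →ₗ[ℂ] ℂ}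
    (hv : IsTangent y v) (hw : HasWeight 𝒜 ν χ v) :
    ∃ w : R →ₗ[ℂ] ℂ, IsTangent y w ∧ HasWeight 𝒜 ν (χ + a) w ∧ v = w.comp F.toLinearMap := by
  obtain ⟨N, z, hN, O⟩ := exists_orb hX hy0 hy hE hF hb hH hF0
  obtain ⟨φ, hφ0, hφ⟩ := O.exists_curve hb
  obtain ⟨⟨f, hf, hfne⟩, f1, hf1, hf1ne⟩ := O.exists_ends hX hy0 hy hF hb
  -- the curve
  have hφh : ∀ (d : ℕ) (m : M), ∀ h ∈ 𝒜 (d, m), (φ h).IsHomogeneous (d * N) := by
    intro d m h hh
    by_cases h0 : z h = 0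
    · rw [hφ0 d m h hh h0]
      exact MvPolynomial.isHomogeneous_zero _ _ _
    · obtain ⟨k, hk, hk'⟩ := O.supp d m h hh h0
      rw [hφ d m k hk hk' h hh]
      apply MvPolynomial.isHomogeneous_monomial
      rw [Finsupp.degree_eq_sum]
      simp only [Fin.sum_univ_two, H644.ex_zero, H644.ex_one]
      omega
  have hφy : (MvPolynomial.aeval ![1, 0]).comp φ = y := by
    apply algHom_ext_graded 𝒜
    rintro ⟨d, m⟩ h hh
    change MvPolynomial.aeval ![1, 0] (φ h) = y h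
    by_cases h0 : z h = 0
    · rw [hφ0 d m h hh h0, map_zero]
      by_contra hne
      have h1 := hy d m h hh (Ne.symm hne)
      subst h1
      rw [O.zy d h hh] at h0
      exact hne h0.symm
    · obtain ⟨k, hk, hk'⟩ := O.supp d m h hh h0
      rw [hφ d m k hk hk' h hh, MvPolynomial.aeval_monomial]
      by_cases hk0 : k = 0
      · subst hk0
        have h1 : m = d • ν := by rw [hk', zero_smul, add_zero]
        subst h1
        rw [O.zy d h hh]
        simp [H644.ex, Finsupp.prod_fintype, Fin.prod_univ_two]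
      · have h1 : y h = 0 := by
          by_contra hne
          have h2 := hy d m h hh hne
          apply hk0
          apply nsmul_inj hb
          rw [zero_smul]
          exact left_eq_add.1 (h2.symm.trans hk')
        rw [h1]
        simp [H644.ex, Finsupp.prod_fintype, Fin.prod_univ_two, hk0]
  have hbp : ∀ s : Fin 2 → ℂ, s ≠ 0 → ¬ IsVertex 𝒜 ((MvPolynomial.aeval s).comp φ) := by
    intro s hs hver
    by_cases hs0 : s 0 = 0
    · have hs1 : s 1 ≠ 0 := by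
        intro hs1
        apply hs
        funext i
        fin_cases i
        · exact hs0
        · exact hs1
      have h1 := hver 1 _ one_pos f1 hf1
      change MvPolynomial.aeval s (φ f1) = 0 at h1
      rw [hφ 1 _ N (by omega) (by rw [one_smul]) f1 hf1, one_mul, Nat.sub_self,
        MvPolynomial.aeval_monomial] at h1
      simp [H644.ex, Finsupp.prod_fintype, Fin.prod_univ_two, hs1, hf1ne] at h1
    · have h1 := hver 1 _ one_pos f hf
      change MvPolynomial.aeval s (φ f) = 0 at h1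
      rw [hφ 1 _ 0 (by omega) (by rw [one_smul, zero_smul, add_zero]) f hf, one_mul, Nat.sub_zero,
        MvPolynomial.aeval_monomial] at h1
      simp [H644.ex, Finsupp.prod_fintype, Fin.prod_univ_two, hs0, hfne] at h1
  obtain ⟨δ, hδ, hδh, hδv⟩ := hnef N φ hφh hbp ![1, 0] (by
    intro h
    have := congrFun h 0
    simp at this) v (by rw [hφy]; exact hv)
  obtain ⟨τ, hτ1, hτ2, hτ3⟩ := O.exists_tau hb χ hφ0 hφ hδ
  have hτv : ∀ (d : ℕ), ∀ h ∈ 𝒜 (d, d • ν + χ), τ h = v h := by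
    intro d h hh
    rw [hτ3 d _ 0 (Nat.zero_le _) (by rw [zero_smul, add_zero]) h hh, ← hδv, Nat.sub_zero,
      H644.aeval_ex (hδh d _ h hh)]
  -- the string
  have hmem : ∀ j : ℤ, χ + j • a + a = χ + (j + 1) • a := by
    intro j
    rw [add_smul, one_smul, add_assoc]
  have hmem' : ∀ j : ℤ, χ + j • a - a = χ + (j - 1) • a := by
    intro j
    rw [sub_smul, one_smul]
    abel
  have hbj : ∀ j : ℤ, b (χ + j • a) = (κ : ℂ) + 2 * j := by
    intro j
    rw [map_add, map_zsmul, hb, hκ, zsmul_eq_mul]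
    ring
  obtain ⟨J, hJ⟩ := sec_bdd hX z ν hb N χ
  let e : ℤ → (R →ₗ[ℂ] ℂ) →ₗ[ℂ] (R →ₗ[ℂ] ℂ) := fun j =>
    LinearMap.lcomp ℂ ℂ (opE 𝒜 ν E b ((κ : ℂ) + 2 * j))
  let f' : ℤ → (R →ₗ[ℂ] ℂ) →ₗ[ℂ] (R →ₗ[ℂ] ℂ) := fun j =>
    LinearMap.lcomp ℂ ℂ (opF 𝒜 ν F b N ((κ : ℂ) + 2 * j))
  have he' : ∀ j (v : R →ₗ[ℂ] ℂ), e j v = v.comp (opE 𝒜 ν E b ((κ : ℂ) + 2 * j)) := fun j v => rfl
  have hf' : ∀ j (v : R →ₗ[ℂ] ℂ), f' j v = v.comp (opF 𝒜 ν F b N ((κ : ℂ) + 2 * j)) :=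
    fun j v => rfl
  obtain ⟨ε, hε, hετ⟩ := surj (e := e) (f := f') (κ := κ) (W := fun j => Sec 𝒜 z ν a N (χ + j • a))
    (fun j v hv => by
      rw [he', ← hmem]
      exact O.opE_sec hE hb (hbj j) hv)
    (fun j v hv => by
      rw [hf', ← hmem']
      exact O.opF_sec hF hb (hbj j) hv)
    (fun j v hv => by
      have h1 := op_comm hE hF hb hN hH ((κ : ℂ) + 2 * j) v
      rw [he', hf', hf', he']
      have h2 : (κ : ℂ) + 2 * ((j + 1 : ℤ) : ℂ) = (κ : ℂ) + 2 * j + 2 := by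
        push_cast
        ring
      have h3 : (κ : ℂ) + 2 * ((j - 1 : ℤ) : ℂ) = (κ : ℂ) + 2 * j - 2 := by
        push_cast
        ring
      rw [h2, h3]
      exact h1) hJ (j := 0) (by omega) (v := τ) (by
      rw [zero_smul, add_zero]
      exact ⟨hτ1, hτ2⟩)
  rw [zero_add] at hε hετ
  rw [one_smul] at hε
  obtain ⟨w, hw1, hw2, hw3⟩ := O.exists_value hy hb hε
  refine ⟨-w, ?_, ?_, ?_⟩
  · intro x g
    change -(w (x * g)) = y x * -(w g) + y g * -(w x)
    rw [hw1]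
    ring
  · intro d m h hh hne
    refine hw2 d m h hh fun h0 => hne ?_
    change -(w h) = 0
    rw [h0, neg_zero]
  · apply linearMap_ext_graded 𝒜
    rintro ⟨d, m⟩ h hh
    change v h = -(w (F h))
    have hFm : F h ∈ 𝒜 (d, m + a) := by
      have := hF d m h hh
      rwa [sub_neg_eq_add] at this
    by_cases hm : m = d • ν + χ
    · subst hm
      have h1 : F h ∈ 𝒜 (d, d • ν + (χ + a)) := by rwa [← add_assoc]
      rw [hw3 d _ h1, ← hτv d h hh, ← hετ, hf', LinearMap.comp_apply, opF_mem hh, map_sub,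
        map_smul]
      have h2 : ε h = 0 := by
        by_contra hne
        obtain ⟨q, -, hq⟩ := hε.2 d _ h hh hne
        have h3 : (((q : ℤ) + 1)) • a = 0 := by
          rw [add_smul, one_smul, natCast_zsmul]
          have h4 : d • ν + (χ + a) + q • a = d • ν + χ + (q • a + a) := by abel
          rw [h4] at hq
          exact left_eq_add.1 hq
        have := nmul_eq hb h3
        omega
      rw [h2, smul_zero, zero_sub]
    · have h1 : v h = 0 := by
        by_contra hne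
        exact hm (hw d m h hh hne)
      have h2 : w (F h) = 0 := by
        by_contra hne
        have h3 := hw2 d _ _ hFm hne
        rw [← add_assoc] at h3
        exact hm (add_right_cancel h3)
      rw [h1, h2, neg_zero]

/-- **Exchange of weights.** -/
theorem exch (hX : IsTorusManifold 𝒜) (hnef : NefOnRationalCurves 𝒜) {y : R →ₐ[ℂ] ℂ}
    (hy0 : ¬ IsVertex 𝒜 y) {ν a : M} (hy : IsFixed 𝒜 y ν) {E F : Derivation ℂ R R}
    (hE : IsHField 𝒜 a E) (hF : IsHField 𝒜 (-a) F) {b : M →+ ℂ} {c : ℂ} (hb : b a = 2)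
    (hH : ∀ (d : ℕ) (m : M), ∀ h ∈ 𝒜 (d, m), ⁅F, E⁆ h = (b m + c * d) • h)
    (hna : ¬ TangentWeight 𝒜 y ν (-a)) {χ : M} {κ : ℤ} (hκ : b χ = κ) (hneg : κ < 0)
    (hχ : TangentWeight 𝒜 y ν χ) : TangentWeight 𝒜 y ν (χ + a) := by
  have ha : -a ≠ 0 := by
    intro h
    have h1 := congrArg b h
    rw [map_neg, hb, map_zero] at h1
    norm_num at h1
  have hF0 := field_vanish hy ha hF hna
  obtain ⟨v, hv, hw, hc⟩ := hχ
  obtain ⟨w, hw1, hw2, hw3⟩ := exch_vec hX hnef hy0 hy hE hF hb hH hF0 hκ hneg hv hw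
  have hne : χ + a ≠ 0 := by
    intro h0
    apply hna
    rw [← eq_neg_iff_add_eq_zero.2 h0]
    exact ⟨v, hv, hw, hc⟩
  obtain ⟨d, m, h, hh, hne'⟩ := hc 0
  rw [zero_mul, zero_mul, hw3] at hne'
  exact H587.tangentWeight_of_ne hy hne hw1 hw2 d _ (hF d m h hh) hne'

end Vale.Agent.P280.H224
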