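import Vale.Agent.P280.H224.Exch

/-! P280: the bracket of a field of weight `a` and a field of weight `-a`. -/

open DirectSum Vale.Agent.P280.T Vale.Agent.P280.H93

set_option linter.unusedSectionVars false

namespace Vale.Agent.P280.H224

variable {M : Type} [AddCommGroup M] [DecidableEq M] {R : Type} [CommRing R] [Algebra ℂ R]
variable {𝒜 : ℕ × M → Submodule ℂ R} [GradedAlgebra 𝒜]

theorem iter_E_eventually (hX : IsTorusManifold 𝒜) {a : M} {E : Derivation ℂ R R}
    (hE : IsHField 𝒜 a E) {b : M →+ ℂ} (hb : b a = 2) {d : ℕ} {m : M} {h : R}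
    (hh : h ∈ 𝒜 (d, m)) : ∃ j : ℕ, (⇑E)^[j] h = 0 := by
  refine iter_F_eventually hX (a := -a) (F := E) (by rwa [neg_neg]) (b := -b) ?_ hh
  rw [AddMonoidHom.neg_apply, map_neg, hb, neg_neg]

/-- The eigenvalues of the bracket are half integral multiples of the value at `a`. The bracket
need only be diagonal on the string of one vector. -/
theorem eigen_string (hX : IsTorusManifold 𝒜) {a : M} {E F : Derivation ℂ R R}
    (hE : IsHField 𝒜 a E) (hF : IsHField 𝒜 (-a) F) {b : M →+ ℂ} (hb : b a = 2)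
    {α : ℂ} {β : M →+ ℂ} {d : ℕ} {m : M} {h : R} (hh : h ∈ 𝒜 (d, m)) (h0 : h ≠ 0)
    (hH : ∀ j k : ℕ, ⁅F, E⁆ ((⇑E)^[k] ((⇑F)^[j] h)) =
      ((d : ℂ) * α + β (m + j • a - k • a)) • (⇑E)^[k] ((⇑F)^[j] h)) :
    ∃ n : ℤ, (d : ℂ) * α + β m = n * (β a / 2) := by
  classical
  obtain ⟨J, hJ, hJ'⟩ : ∃ j : ℕ, (⇑F)^[j] h ≠ 0 ∧ F ((⇑F)^[j] h) = 0 := by
    have hex := iter_F_eventually hX hF hb hh
    have h1 := Nat.find_spec hex
    have h2 : Nat.find hex ≠ 0 := by
      intro h3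
      rw [h3] at h1
      exact h0 h1
    obtain ⟨j, hj⟩ := Nat.exists_eq_succ_of_ne_zero h2
    refine ⟨j, Nat.find_min hex (by omega), ?_⟩
    rw [hj, Function.iterate_succ_apply'] at h1
    exact h1
  set g := (⇑F)^[J] h with hg
  have hgm : g ∈ 𝒜 (d, m + J • a) := by
    have := iter_mem hF hh J
    rwa [smul_neg, sub_neg_eq_add] at this
  obtain ⟨K, hK, hK'⟩ : ∃ k : ℕ, (⇑E)^[k] g ≠ 0 ∧ (⇑E)^[k + 1] g = 0 := by
    have hex := iter_E_eventually hX hE hb hgm
    have h1 := Nat.find_spec hex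
    have h2 : Nat.find hex ≠ 0 := by
      intro h3
      rw [h3] at h1
      exact hJ h1
    obtain ⟨j, hj⟩ := Nat.exists_eq_succ_of_ne_zero h2
    refine ⟨j, Nat.find_min hex (by omega), ?_⟩
    rw [hj] at h1
    exact h1
  have key : ∀ k : ℕ, F ((⇑E)^[k + 1] g) =
      (((k : ℂ) + 1) * ((d : ℂ) * α + β m + J * β a - k * (β a / 2))) • (⇑E)^[k] g := by
    intro k
    have h3 : ∀ k : ℕ, F (E ((⇑E)^[k] g)) = E (F ((⇑E)^[k] g)) +
        ((d : ℂ) * α + β m + J * β a - k * β a) • (⇑E)^[k] g := by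
      intro k
      have h4 := hH J k
      rw [← hg, Derivation.commutator_apply, sub_eq_iff_eq_add] at h4
      rw [h4, add_comm]
      congr 2
      rw [map_sub, map_add, map_nsmul, map_nsmul, nsmul_eq_mul, nsmul_eq_mul]
      ring
    induction k with
    | zero =>
      have h4 := h3 0
      change F (E g) = _ • g
      change F (E g) = E (F g) + _ • g at h4
      rw [h4, hJ', map_zero, zero_add]
      congr 1
      push_cast
      ring
    | succ k ih =>
      rw [Function.iterate_succ_apply', h3, ih, E.map_smul, ← Function.iterate_succ_apply' E,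
        ← add_smul]
      congr 1
      push_cast
      ring
  have h4 := key K
  rw [hK', map_zero] at h4
  have h5 := (smul_eq_zero.1 h4.symm).resolve_right hK
  have h6 := (mul_eq_zero.1 h5).resolve_left (Nat.cast_add_one_ne_zero K)
  refine ⟨K - 2 * J, ?_⟩
  push_cast
  linear_combination h6

/-- The eigenvalues of the bracket are half integral multiples of the value at `a`. -/
theorem eigen (hX : IsTorusManifold 𝒜) {a : M} {E F : Derivation ℂ R R}
    (hE : IsHField 𝒜 a E) (hF : IsHField 𝒜 (-a) F) {b : M →+ ℂ} (hb : b a = 2)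
    {α : ℂ} {β : M →+ ℂ}
    (hH : ∀ (d : ℕ) (m : M), ∀ h ∈ 𝒜 (d, m), ⁅F, E⁆ h = ((d : ℂ) * α + β m) • h)
    {d : ℕ} {m : M} {h : R} (hh : h ∈ 𝒜 (d, m)) (h0 : h ≠ 0) :
    ∃ n : ℤ, (d : ℂ) * α + β m = n * (β a / 2) := by
  refine eigen_string hX hE hF hb hh h0 fun j k => hH _ _ _ ?_
  have := iter_mem hF hh j
  rw [smul_neg, sub_neg_eq_add] at this
  exact iter_mem hE this k

/-- The generic point of the orbit of a fixed point under the exponential of `E`. -/
theorem exists_gen {y : R →ₐ[ℂ] ℂ} {ν a : M} (hy : IsFixed 𝒜 y ν) {E : Derivation ℂ R R}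
    (hE : IsHField 𝒜 a E) {b : M →+ ℂ} (hb : b a = 2) :
    ∃ z : R →ₐ[ℂ] ℂ, (∀ (d : ℕ) (m : M), ∀ h ∈ 𝒜 (d, m), ∀ k : ℕ, m = d • ν + k • a →
      z h = cl y E k h) ∧
      ∀ (d : ℕ) (m : M), ∀ h ∈ 𝒜 (d, m), z h ≠ 0 → ∃ k : ℕ, m = d • ν + k • a := by
  have hw : ∀ (i : ℕ × M), ∀ x ∈ 𝒜 i, ∀ k, cl y E k x ≠ 0 → k = kk ν a i := by
    rintro ⟨d, m⟩ x hx k hk
    exact (kk_eq hb (cl_weight hy hE hx hk)).symm
  obtain ⟨z, hz⟩ := exists_algHom 𝒜 (fun i => cl y E (kk ν a i)) (by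
      have h1 : kk ν a ((0, 0) : ℕ × M) = 0 := kk_eq hb (by simp)
      change cl y E (kk ν a ((0, 0) : ℕ × M)) 1 = 1
      rw [h1, cl_zero, map_one]) (by
      intro i j x hx g hg
      change cl y E (kk ν a (i + j)) (x * g) = cl y E (kk ν a i) x * cl y E (kk ν a j) g
      rw [cl_mul]
      by_cases h1 : cl y E (kk ν a i) x = 0
      · rw [h1, zero_mul]
        refine Finset.sum_eq_zero fun ij _ => ?_
        by_cases h2 : cl y E ij.1 x = 0
        · rw [h2, zero_mul]
        · exact absurd h1 (by rw [← hw i x hx _ h2]; exact h2)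
      by_cases h3 : cl y E (kk ν a j) g = 0
      · rw [h3, mul_zero]
        refine Finset.sum_eq_zero fun ij _ => ?_
        by_cases h2 : cl y E ij.2 g = 0
        · rw [h2, mul_zero]
        · exact absurd h3 (by rw [← hw j g hg _ h2]; exact h2)
      have e1 := cl_weight (d := i.1) (m := i.2) hy hE hx h1
      have e2 := cl_weight (d := j.1) (m := j.2) hy hE hg h3
      have e3 : kk ν a (i + j) = kk ν a i + kk ν a j := by
        apply kk_eq (d := (i + j).1) (m := (i + j).2) hb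
        rw [Prod.fst_add, Prod.snd_add, e1, e2, add_smul, add_smul]
        abel
      rw [e3]
      rw [Finset.sum_eq_single (kk ν a i, kk ν a j)]
      · rintro ⟨p, q⟩ hpq hne
        by_cases h2 : cl y E p x = 0
        · rw [h2, zero_mul]
        by_cases h4 : cl y E q g = 0
        · rw [h4, mul_zero]
        exact absurd (Prod.ext (hw i x hx _ h2) (hw j g hg _ h4)) hne
      · intro h
        exact absurd (Finset.HasAntidiagonal.mem_antidiagonal.2
          (rfl : (kk ν a i, kk ν a j).1 + (kk ν a i, kk ν a j).2 = _)) h)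
  refine ⟨z, fun d m h hh k hk => ?_, fun d m h hh hne => ?_⟩
  · have h1 := hz (d, m) h hh
    rw [kk_eq hb hk] at h1
    exact h1
  · have h1 := hz (d, m) h hh
    rw [h1] at hne
    exact ⟨_, cl_weight hy hE hh hne⟩

/-- If `F` vanishes along the orbit of `E`, the limit of this orbit is a point with tangent weight
`-a` at which `F` vanishes. -/
theorem exists_limit_iter (hX : IsTorusManifold 𝒜) {y : R →ₐ[ℂ] ℂ} (hy0 : ¬ IsVertex 𝒜 y)
    {ν a : M} (hy : IsFixed 𝒜 y ν) {E F : Derivation ℂ R R} (hE : IsHField 𝒜 a E)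
    (hF : IsHField 𝒜 (-a) F) {l : M →+ ℤ} (hl : 0 < l a)
    (hF0 : ∀ (k : ℕ) (h : R), y ((⇑E)^[k] (F h)) = 0) (hE0 : ∃ h, y (E h) ≠ 0) :
    ∃ (p : R →ₐ[ℂ] ℂ) (μ : M), ¬ IsVertex 𝒜 p ∧ IsFixed 𝒜 p μ ∧ TangentWeight 𝒜 p μ (-a) ∧
      ∀ h, p (F h) = 0 := by
  classical
  let b : M →+ ℂ := (AddMonoidHom.mulLeft (2 / (l a : ℂ))).comp ((Int.castAddHom ℂ).comp l)
  have hb' : ∀ m, b m = 2 / (l a : ℂ) * (l m : ℂ) := fun m => rfl
  have hla : (l a : ℂ) ≠ 0 := by exact_mod_cast hl.ne'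
  have hb : b a = 2 := by
    rw [hb']
    field_simp
  obtain ⟨z, hz, hz0⟩ := exists_gen hy hE hb
  have hzy : ∀ (d : ℕ), ∀ h ∈ 𝒜 (d, d • ν), z h = y h := by
    intro d h hh
    rw [hz d _ h hh 0 (by simp), cl_zero]
  -- the largest exponent in degree one
  obtain ⟨K, ⟨m1, f1, hf1, hf1ne⟩, hKmax⟩ : ∃ K : ℕ,
      (∃ m, ∃ h ∈ 𝒜 (1, m), cl y E K h ≠ 0) ∧
      ∀ k m, ∀ h ∈ 𝒜 (1, m), cl y E k h ≠ 0 → k ≤ K := by
    obtain ⟨B, hB⟩ := re_bdd hX b
    have hbd : ∀ k m, ∀ h ∈ 𝒜 (1, m), cl y E k h ≠ 0 → k ≤ ⌊(B - (b ν).re) / 2⌋₊ := by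
      intro k m h hh hne
      apply Nat.le_floor
      have h1 := cl_weight hy hE hh hne
      have h2 := hB 1 m h hh (fun h3 => hne (by rw [h3, map_zero]))
      rw [h1, one_smul, map_add, map_nsmul, hb, nsmul_eq_mul, Complex.add_re, Complex.mul_re,
        Complex.natCast_re, Complex.natCast_im, zero_mul, sub_zero, Nat.cast_one, one_mul] at h2
      have h3 : ((2 : ℂ)).re = 2 := by simp
      rw [h3] at h2
      linarith
    obtain ⟨f, hf, hfne⟩ := exists_deg_one_ne hX.gen hy0 hy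
    let P : ℕ → Prop := fun k => ∃ m, ∃ h ∈ 𝒜 (1, m), cl y E k h ≠ 0
    have hP0 : P 0 := ⟨ν, f, hf, by rwa [cl_zero]⟩
    refine ⟨Nat.findGreatest P ⌊(B - (b ν).re) / 2⌋₊, Nat.findGreatest_spec (P := P) (Nat.zero_le _) hP0,
      fun k m h hh hne => Nat.le_findGreatest (hbd k m h hh hne) ⟨m, h, hh, hne⟩⟩
  have hm1 : m1 = 1 • ν + K • a := cl_weight hy hE hf1 hf1ne
  have hzf1 : z f1 ≠ 0 := by rwa [hz 1 m1 f1 hf1 K hm1]
  have hK1 : 1 ≤ K := by
    obtain ⟨x, hx⟩ := hE0
    by_contra hcon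
    apply hx
    have h1 := tangent_eq_zero hX (isTangent_value y E) (fun m h hh => by
      change y (E h) = 0
      by_contra hne
      have h2 := hKmax 1 m h hh (by
        have h3 := cl_succ y E 0 h
        rw [cl_zero] at h3
        intro h4
        rw [zero_add] at h3
        rw [h4, mul_zero] at h3
        exact hne h3)
      omega)
    exact LinearMap.congr_fun h1 x
  have hsupp : ∀ (d : ℕ) (m : M), ∀ h ∈ 𝒜 (d, m), z h ≠ 0 →
      ∃ k : ℕ, k ≤ d * K ∧ m = d • ν + k • a := by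
    intro d m h hh hne
    obtain ⟨k, hk⟩ := hz0 d m h hh hne
    refine ⟨k, ?_, hk⟩
    have h1 := slope_le hX.gen (-l) (-(l ν + K * l a)) (RingHom.ker z) (fun m h hh hI => by
      have hI' : z h ≠ 0 := fun h0 => hI ((RingHom.mem_ker).2 h0)
      obtain ⟨k, hk⟩ := hz0 1 m h hh hI'
      have h2 := hKmax k m h hh (by rwa [← hz 1 m h hh k hk])
      rw [AddMonoidHom.neg_apply, hk, one_smul, map_add, map_nsmul, nsmul_eq_mul]
      have h3 : (k : ℤ) * l a ≤ K * l a := mul_le_mul_of_nonneg_right (by exact_mod_cast h2) hl.le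
      omega) d m h hh (fun h0 => hne ((RingHom.mem_ker).1 h0))
    rw [AddMonoidHom.neg_apply, hk, map_add, map_nsmul, map_nsmul, nsmul_eq_mul, nsmul_eq_mul,
      nsmul_eq_mul] at h1
    have h2 : (k : ℤ) * l a ≤ (d * K) * l a := by linarith
    have h3 := le_of_mul_le_mul_right h2 hl
    exact_mod_cast h3
  set μ : M := ν + K • a with hμ
  -- the limit point
  let w : ℕ × M →+ ℤ :=
    { toFun := fun i => i.1 * l μ - l i.2
      map_zero' := by simp
      map_add' := by
        intro i j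
        simp only [Prod.fst_add, Prod.snd_add, map_add]
        push_cast
        ring }
  have hw : ∀ d m, w (d, m) = d * l μ - l m := fun d m => rfl
  have hwk : ∀ (d : ℕ) (m : M) (k : ℕ), m = d • ν + k • a → w (d, m) = (d * K - k) * l a := by
    intro d m k hk
    rw [hw, hk, hμ, map_add, map_add, map_nsmul, map_nsmul, map_nsmul, nsmul_eq_mul, nsmul_eq_mul,
      nsmul_eq_mul]
    ring
  obtain ⟨p, hp1, hp2⟩ := exists_limit 𝒜 z w (by
    rintro ⟨d, m⟩ h hh hne
    obtain ⟨k, hk, hk'⟩ := hsupp d m h hh hne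
    rw [hwk d m k hk']
    refine mul_nonneg ?_ hl.le
    have : (k : ℤ) ≤ d * K := by exact_mod_cast hk
    omega)
  have hpk : ∀ (d : ℕ) (m : M) (k : ℕ), m = d • ν + k • a → ∀ h ∈ 𝒜 (d, m),
      p h = if k = d * K then z h else 0 := by
    intro d m k hk h hh
    by_cases h1 : k = d * K
    · rw [if_pos h1]
      apply hp1 (d, m) h hh
      rw [hwk d m k hk, h1]
      push_cast
      ring
    · rw [if_neg h1]
      apply hp2 (d, m) h hh
      rw [hwk d m k hk]
      refine mul_ne_zero ?_ hl.ne'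
      intro h0
      apply h1
      have : (k : ℤ) = d * K := by omega
      exact_mod_cast this
  have hpz : ∀ (d : ℕ) (m : M), ∀ h ∈ 𝒜 (d, m), z h = 0 → p h = 0 := by
    intro d m h hh h0
    by_cases h1 : w (d, m) = 0
    · rw [hp1 _ h hh h1, h0]
    · exact hp2 _ h hh h1
  have hpfix : IsFixed 𝒜 p μ := by
    intro d m h hh hne
    have h1 : z h ≠ 0 := fun h0 => hne (hpz d m h hh h0)
    obtain ⟨k, -, hk⟩ := hsupp d m h hh h1
    rw [hpk d m k hk h hh] at hne
    have h2 : k = d * K := by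
      by_contra h2
      rw [if_neg h2] at hne
      exact hne rfl
    rw [hk, h2, hμ, smul_add, smul_smul]
  have hpf1 : p f1 ≠ 0 := by
    rw [hpk 1 m1 K hm1 f1 hf1, one_mul, if_pos rfl]
    exact hzf1
  have hpv : ¬ IsVertex 𝒜 p := fun hv => hpf1 (hv 1 m1 one_pos f1 hf1)
  -- the tangent vector
  set u : R →ₗ[ℂ] ℂ := H644.tw 𝒜 fun i => if i.2 + a = i.1 • μ then z.toLinearMap else 0 with hu
  have huk : ∀ (d : ℕ) (m : M) (k : ℕ), m = d • ν + k • a → ∀ h ∈ 𝒜 (d, m),
      u h = if k + 1 = d * K then z h else 0 := by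
    intro d m k hk h hh
    have hiff : m + a = d • μ ↔ k + 1 = d * K := by
      rw [hk, hμ, smul_add, smul_smul, add_assoc, ← succ_nsmul]
      constructor
      · intro h1
        exact nsmul_inj hb (add_left_cancel h1)
      · intro h1
        rw [h1]
    rw [hu, H644.tw_mem 𝒜 _ hh]
    by_cases h1 : k + 1 = d * K
    · rw [if_pos h1, if_pos (hiff.2 h1)]
      rfl
    · rw [if_neg h1, if_neg (fun h2 => h1 (hiff.1 h2))]
      rfl
  have huz : ∀ (d : ℕ) (m : M), ∀ h ∈ 𝒜 (d, m), z h = 0 → u h = 0 := by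
    intro d m h hh h0
    rw [hu, H644.tw_mem 𝒜 _ hh]
    split_ifs
    · exact h0
    · rfl
  have hutan : IsTangent p u := by
    have hder : H644.IsDer p u := by
      refine H644.isDer_of_hom (𝒜 := 𝒜) ?_
      rintro ⟨d, m⟩ ⟨d', m'⟩ x hx g hg
      have hxg : x * g ∈ 𝒜 (d + d', m + m') := SetLike.mul_mem_graded hx hg
      by_cases hx0 : z x = 0
      · rw [huz _ _ _ hxg (by rw [map_mul, hx0, zero_mul]), hpz d m x hx hx0, huz d m x hx hx0]
        ring
      by_cases hg0 : z g = 0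
      · rw [huz _ _ _ hxg (by rw [map_mul, hg0, mul_zero]), hpz d' m' g hg hg0,
          huz d' m' g hg hg0]
        ring
      obtain ⟨k, hk, hk'⟩ := hsupp d m x hx hx0
      obtain ⟨k', hk1, hk1'⟩ := hsupp d' m' g hg hg0
      have h1 : m + m' = (d + d') • ν + (k + k') • a := by
        rw [hk', hk1', add_smul, add_smul]
        abel
      rw [huk _ _ _ h1 _ hxg, huk _ _ _ hk' _ hx, huk _ _ _ hk1' _ hg, hpk _ _ _ hk' _ hx,
        hpk _ _ _ hk1' _ hg, map_mul, add_mul]
      by_cases c1 : k = d * K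
      · by_cases c2 : k' + 1 = d' * K
        · rw [if_pos (by omega), if_pos c1, if_pos c2, if_neg (by omega)]
          ring
        · rw [if_neg (by omega), if_neg c2, if_neg (by omega : ¬ (k + 1 = d * K))]
          ring
      · by_cases c2 : k' = d' * K
        · by_cases c3 : k + 1 = d * K
          · rw [if_pos (by omega), if_neg c1, if_pos c2, if_pos c3]
            ring
          · rw [if_neg (by omega), if_neg c1, if_neg c3]
            ring
        · rw [if_neg (by omega), if_neg c1, if_neg c2]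
          ring
    exact hder
  have huw : HasWeight 𝒜 μ (-a) u := by
    intro d m h hh hne
    rw [hu, H644.tw_mem 𝒜 _ hh] at hne
    have h1 : m + a = d • μ := by
      by_contra h1
      rw [if_neg h1] at hne
      exact hne rfl
    rw [← h1]
    abel
  have hune : u (E f1) ≠ 0 := by
    obtain ⟨k, rfl⟩ := Nat.exists_eq_succ_of_ne_zero (by omega : K ≠ 0)
    have hm2 : m1 - a = 1 • ν + k • a := by
      rw [hm1, Nat.succ_eq_add_one, succ_nsmul a k]
      abel
    rw [huk 1 _ k hm2 _ (hE 1 m1 f1 hf1), if_pos (by omega), hz 1 _ _ (hE 1 m1 f1 hf1) k hm2,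
      cl_succ]
    exact mul_ne_zero (Nat.cast_add_one_ne_zero k) hf1ne
  have ha0 : -a ≠ 0 := by
    intro h
    rw [neg_eq_zero] at h
    rw [h, map_zero] at hl
    exact lt_irrefl _ hl
  refine ⟨p, μ, hpv, hpfix, H587.tangentWeight_of_ne hpfix ha0 hutan huw 1 _ (hE 1 m1 f1 hf1)
    hune, fun h => ?_⟩
  -- `F` vanishes at the limit
  have key : p.toLinearMap.comp F.toLinearMap = 0 := by
    apply linearMap_ext_graded 𝒜
    rintro ⟨d, m⟩ h hh
    change p (F h) = 0
    by_contra hne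
    have hFm := hF d m h hh
    have h1 : z (F h) ≠ 0 := fun h0 => hne (hpz _ _ _ hFm h0)
    obtain ⟨k, -, hk⟩ := hsupp _ _ _ hFm h1
    rw [hz _ _ _ hFm k hk, cl_apply, hF0, mul_zero] at h1
    exact h1 rfl
  exact LinearMap.congr_fun key h

/-- If the fields commute, the limit of the orbit of `E` is a point with tangent weight `-a` at
which `F` vanishes. -/
theorem exists_limit_commute (hX : IsTorusManifold 𝒜) {y : R →ₐ[ℂ] ℂ} (hy0 : ¬ IsVertex 𝒜 y)
    {ν a : M} (hy : IsFixed 𝒜 y ν) {E F : Derivation ℂ R R} (hE : IsHField 𝒜 a E)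
    (hF : IsHField 𝒜 (-a) F) {l : M →+ ℤ} (hl : 0 < l a) (hcomm : ∀ h, F (E h) = E (F h))
    (hF0 : ∀ h, y (F h) = 0) (hE0 : ∃ h, y (E h) ≠ 0) :
    ∃ (p : R →ₐ[ℂ] ℂ) (μ : M), ¬ IsVertex 𝒜 p ∧ IsFixed 𝒜 p μ ∧ TangentWeight 𝒜 p μ (-a) ∧
      ∀ h, p (F h) = 0 := by
  refine exists_limit_iter hX hy0 hy hE hF hl (fun k h => ?_) hE0
  have hiter : ∀ (k : ℕ) (h : R), (⇑E)^[k] (F h) = F ((⇑E)^[k] h) := by
    intro k
    induction k with
    | zero => intro h; rfl
    | succ k ih =>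
      intro h
      rw [Function.iterate_succ_apply', Function.iterate_succ_apply', ih, hcomm]
  rw [hiter, hF0]

end Vale.Agent.P280.H224
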