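import Vale.Agent.P280.H224.Str
import Vale.Agent.P280.H93.Minors
import Vale.Agent.P280.H587.CorA

/-! P280: the weights at a fixed point of a group of type `SL_2` are stable under the reflection. -/

open Vale.Agent.P280.T Vale.Agent.P280.H93

set_option linter.unusedSectionVars false

namespace Vale.Agent.P280.H224

variable {M : Type} [AddCommGroup M] [DecidableEq M] {R : Type} [CommRing R] [Algebra ℂ R]
variable {𝒜 : ℕ × M → Submodule ℂ R}

/-- Composition of a tangent vector with a field which vanishes at the point. -/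
theorem isTangent_comp {y : R →ₐ[ℂ] ℂ} {D : Derivation ℂ R R} (hD : ∀ h, y (D h) = 0)
    {v : R →ₗ[ℂ] ℂ} (hv : IsTangent y v) : IsTangent y (v.comp D.toLinearMap) := by
  intro a b
  change v (D (a * b)) = y a * v (D b) + y b * v (D a)
  rw [Derivation.leibniz, smul_eq_mul, smul_eq_mul, map_add, hv, hv, hD, hD]
  ring

theorem hasWeight_comp {ν χ ω : M} {D : Derivation ℂ R R} (hD : IsHField 𝒜 χ D)
    {v : R →ₗ[ℂ] ℂ} (hv : HasWeight 𝒜 ν ω v) :
    HasWeight 𝒜 ν (ω + χ) (v.comp D.toLinearMap) := by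
  intro d m h hh hne
  have h1 := hv d _ _ (hD d m h hh) hne
  rw [sub_eq_iff_eq_add] at h1
  rw [h1, add_assoc]

theorem isTangent_value (y : R →ₐ[ℂ] ℂ) (D : Derivation ℂ R R) :
    IsTangent y (y.toLinearMap.comp D.toLinearMap) := by
  intro a b
  change y (D (a * b)) = y a * y (D b) + y b * y (D a)
  rw [Derivation.leibniz, smul_eq_mul, smul_eq_mul, map_add, map_mul, map_mul]

theorem hasWeight_value {y : R →ₐ[ℂ] ℂ} {ν χ : M} (hy : IsFixed 𝒜 y ν) {D : Derivation ℂ R R}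
    (hD : IsHField 𝒜 χ D) : HasWeight 𝒜 ν χ (y.toLinearMap.comp D.toLinearMap) := by
  intro d m h hh hne
  have h1 := hy d _ _ (hD d m h hh) hne
  rw [sub_eq_iff_eq_add] at h1
  exact h1

variable [GradedAlgebra 𝒜]

/-- A field of weight `χ` vanishes at the fixed points where `χ` is not a tangent weight. -/
theorem field_vanish {y : R →ₐ[ℂ] ℂ} {ν χ : M} (hy : IsFixed 𝒜 y ν) (hχ : χ ≠ 0)
    {E : Derivation ℂ R R} (hE : IsHField 𝒜 χ E) (hn : ¬ TangentWeight 𝒜 y ν χ) (h : R) :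
    y (E h) = 0 := by
  have key : y.toLinearMap.comp E.toLinearMap = 0 := by
    apply linearMap_ext_graded 𝒜
    rintro ⟨d, m⟩ h hh
    by_contra hne
    exact hn (H587.tangentWeight_of_ne hy hχ (isTangent_value y E) (hasWeight_value hy hE) d m hh
      hne)
  exact LinearMap.congr_fun key h

/-- The normalisation of the commutator at a fixed point where both fields vanish. -/
theorem slope_eq {y : R →ₐ[ℂ] ℂ} (hX : IsTorusManifold 𝒜) {ν : M} (hy0 : ¬ IsVertex 𝒜 y)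
    (hy : IsFixed 𝒜 y ν) {E F : Derivation ℂ R R} (hE : ∀ h, y (E h) = 0)
    (hF : ∀ h, y (F h) = 0) {b : M →+ ℤ} {c : ℂ}
    (hH : ∀ (d : ℕ) (m : M), ∀ h ∈ 𝒜 (d, m), ⁅F, E⁆ h = ((b m : ℂ) + c * d) • h) :
    (b ν : ℂ) + c = 0 := by
  obtain ⟨f, hf, hne⟩ := exists_deg_one_ne hX.gen hy0 hy
  have h1 := hH 1 ν f hf
  rw [Derivation.commutator_apply] at h1
  have h2 := congrArg y h1
  rw [map_sub, hE, hF, sub_zero, map_smul, smul_eq_mul] at h2
  have h3 := (mul_eq_zero.1 h2.symm).resolve_right hne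
  rw [Nat.cast_one, mul_one] at h3
  exact h3

/-- Reflections, the case of a nonpositive value. -/
theorem refl_aux (hX : IsTorusManifold 𝒜) {y : R →ₐ[ℂ] ℂ} {ν : M} (hy0 : ¬ IsVertex 𝒜 y)
    (hy : IsFixed 𝒜 y ν) {χ : M} {E F : Derivation ℂ R R} (hE : IsHField 𝒜 χ E)
    (hF : IsHField 𝒜 (-χ) F) {b : M →+ ℤ} {c : ℂ} (hb : b χ = 2)
    (hH : ∀ (d : ℕ) (m : M), ∀ h ∈ 𝒜 (d, m), ⁅F, E⁆ h = ((b m : ℂ) + c * d) • h)
    (hE0 : ∀ h, y (E h) = 0) (hF0 : ∀ h, y (F h) = 0) {ω : M} {v : R →ₗ[ℂ] ℂ}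
    (hv : IsTangent y v) (hw : HasWeight 𝒜 ν ω v) (hne : v ≠ 0) {k : ℕ} (hk : b ω = -k) :
    ∃ v' : R →ₗ[ℂ] ℂ, IsTangent y v' ∧ HasWeight 𝒜 ν (ω + k • χ) v' ∧ v' ≠ 0 := by
  have hs := slope_eq hX hy0 hy hE0 hF0 hH
  let e : (R →ₗ[ℂ] ℂ) →ₗ[ℂ] (R →ₗ[ℂ] ℂ) := LinearMap.lcomp ℂ ℂ E.toLinearMap
  let f : (R →ₗ[ℂ] ℂ) →ₗ[ℂ] (R →ₗ[ℂ] ℂ) := LinearMap.lcomp ℂ ℂ F.toLinearMap
  let P : ℤ → (R →ₗ[ℂ] ℂ) → Prop := fun k v => IsTangent y v ∧
    ∃ ω' : M, HasWeight 𝒜 ν ω' v ∧ b ω' = k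
  have he' : ∀ (v : R →ₗ[ℂ] ℂ), e v = v.comp E.toLinearMap := fun v => rfl
  have hf' : ∀ (v : R →ₗ[ℂ] ℂ), f v = v.comp F.toLinearMap := fun v => rfl
  have he : ∀ k v, P k v → P (k + 2) (e v) := by
    rintro k v ⟨h1, ω', h2, h3⟩
    exact ⟨isTangent_comp hE0 h1, ω' + χ, hasWeight_comp hE h2, by rw [map_add, h3, hb]⟩
  have hf : ∀ k v, P k v → P (k - 2) (f v) := by
    rintro k v ⟨h1, ω', h2, h3⟩
    exact ⟨isTangent_comp hF0 h1, ω' + -χ, hasWeight_comp hF h2, by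
      rw [map_add, map_neg, h3, hb]
      ring⟩
  have hc : ∀ k v, P k v → f (e v) - e (f v) = (-(k : ℂ)) • v := by
    rintro k v ⟨h1, ω', h2, h3⟩
    apply linearMap_ext_graded 𝒜
    rintro ⟨d, m⟩ h hh
    change v (E (F h)) - v (F (E h)) = -(k : ℂ) * v h
    have h4 := hH d m h hh
    rw [Derivation.commutator_apply] at h4
    have h5 : v (F (E h)) - v (E (F h)) = ((b m : ℂ) + c * d) * v h := by
      rw [← map_sub, h4, map_smul, smul_eq_mul]
    by_cases hvh : v h = 0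
    · rw [hvh, mul_zero] at h5
      rw [hvh, mul_zero, ← neg_sub, h5, neg_zero]
    · have h6 := h2 d m h hh hvh
      rw [h6, map_add, map_nsmul, h3] at h5
      have h7 : (((d • b ν + k : ℤ) : ℂ) + c * d) = k := by
        rw [nsmul_eq_mul]
        push_cast
        linear_combination (d : ℂ) * hs
      rw [h7] at h5
      linear_combination -h5
  obtain ⟨K, hK0, hK⟩ := H587.exists_bound (finite_weights hX) b
  have hB : ∀ k v, P k v → k < -K → v = 0 := by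
    rintro k v ⟨h1, ω', h2, h3⟩ hlt
    apply LinearMap.ext
    intro x
    refine H587.tangent_eq_zero hX h1 (fun m g hg => ?_) x
    by_contra hvg
    have h4 := h2 1 m g hg hvg
    obtain ⟨f0, hf0, hf0y⟩ := exists_deg_one_ne hX.gen hy0 hy
    have h5 := hK m ⟨g, hg, fun h => hvg (by rw [h, map_zero])⟩ ν
      ⟨f0, hf0, fun h => hf0y (by rw [h, map_zero])⟩
    rw [h4, one_smul, add_sub_cancel_left, h3] at h5
    have := (abs_le.1 h5).1
    omega
  obtain ⟨N, hN⟩ := string (P := P) he hf hc (B := -K) (fun k v h hk => hB k v h hk) (k := k)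
    (v := v) ⟨hv, ω, hw, hk⟩ hne
  have h1 : ∀ N : ℕ, IsTangent y ((f ^ N) v) ∧ HasWeight 𝒜 ν (ω + N • (-χ)) ((f ^ N) v) := by
    intro N
    induction N with
    | zero =>
      rw [pow_zero, zero_smul, add_zero]
      exact ⟨hv, hw⟩
    | succ N ih =>
      have e1 : (f ^ (N + 1)) v = f ((f ^ N) v) := by
        rw [pow_succ' f N]
        rfl
      rw [e1]
      refine ⟨isTangent_comp hF0 ih.1, ?_⟩
      have h2 := hasWeight_comp hF ih.2
      rw [add_assoc, ← succ_nsmul] at h2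
      exact h2
  have h2 : ∀ i : ℕ, IsTangent y ((e ^ i) ((f ^ N) v)) ∧
      HasWeight 𝒜 ν (ω + N • (-χ) + i • χ) ((e ^ i) ((f ^ N) v)) := by
    intro i
    induction i with
    | zero =>
      rw [pow_zero, zero_smul, add_zero]
      exact h1 N
    | succ i ih =>
      have e1 : (e ^ (i + 1)) ((f ^ N) v) = e ((e ^ i) ((f ^ N) v)) := by
        rw [pow_succ' e i]
        rfl
      rw [e1]
      refine ⟨isTangent_comp hE0 ih.1, ?_⟩
      have h2 := hasWeight_comp hE ih.2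
      rw [add_assoc, ← succ_nsmul] at h2
      exact h2
  refine ⟨_, (h2 (N + k)).1, ?_, hN⟩
  have h3 := (h2 (N + k)).2
  have e1 : ω + N • (-χ) + (N + k) • χ = ω + k • χ := by
    rw [add_smul, smul_neg]
    abel
  rw [e1] at h3
  exact h3

/-- **Reflections** : at a fixed point where neither `χ` nor `-χ` is a tangent weight, the tangent
weights are stable under the reflection of `χ`. -/
theorem refl_mem (hX : IsTorusManifold 𝒜) {y : R →ₐ[ℂ] ℂ} {ν : M} (hy0 : ¬ IsVertex 𝒜 y)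
    (hy : IsFixed 𝒜 y ν) {χ : M} {E F : Derivation ℂ R R} (hE : IsHField 𝒜 χ E)
    (hF : IsHField 𝒜 (-χ) F) {b : M →+ ℤ} {c : ℂ} (hb : b χ = 2)
    (hH : ∀ (d : ℕ) (m : M), ∀ h ∈ 𝒜 (d, m), ⁅F, E⁆ h = ((b m : ℂ) + c * d) • h)
    (h1 : ¬ TangentWeight 𝒜 y ν χ) (h2 : ¬ TangentWeight 𝒜 y ν (-χ)) {ω : M} (hω0 : ω - b ω • χ ≠ 0)
    (hω : TangentWeight 𝒜 y ν ω) : TangentWeight 𝒜 y ν (ω - b ω • χ) := by
  have hχ : χ ≠ 0 := by
    rintro rfl
    rw [map_zero] at hb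
    omega
  have hE0 := field_vanish hy hχ hE h1
  have hF0 := field_vanish hy (neg_ne_zero.2 hχ) hF h2
  obtain ⟨v, hv, hw, hc⟩ := hω
  have hne : v ≠ 0 := by
    rintro rfl
    obtain ⟨d, m, h, -, h3⟩ := hc 0
    simp at h3
  have fin : ∀ {ω' : M} {v' : R →ₗ[ℂ] ℂ}, ω' ≠ 0 → IsTangent y v' → HasWeight 𝒜 ν ω' v' →
      v' ≠ 0 → TangentWeight 𝒜 y ν ω' := by
    intro ω' v' h0 h3 h4 h5
    by_contra hcon
    apply h5
    apply linearMap_ext_graded 𝒜
    rintro ⟨d, m⟩ h hh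
    by_contra h6
    exact hcon (H587.tangentWeight_of_ne hy h0 h3 h4 d m hh h6)
  rcases le_total (b ω) 0 with hle | hle
  · obtain ⟨k, hk⟩ := Int.exists_eq_neg_ofNat hle
    obtain ⟨v', h3, h4, h5⟩ := refl_aux hX hy0 hy hE hF hb hH hE0 hF0 hv hw hne hk
    have e1 : ω + k • χ = ω - b ω • χ := by
      rw [hk, neg_smul, sub_neg_eq_add, natCast_zsmul]
    rw [e1] at h4
    exact fin hω0 h3 h4 h5
  · obtain ⟨k, hk⟩ := Int.eq_ofNat_of_zero_le hle
    have hE' : IsHField 𝒜 (-(-χ)) E := by rwa [neg_neg]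
    obtain ⟨v', h3, h4, h5⟩ := refl_aux hX hy0 hy hF hE' (b := -b) (c := -c) (by
        change -(b (-χ)) = 2
        rw [map_neg, hb, neg_neg]) (fun d m h hh => by
        have h3 := hH d m h hh
        rw [← lie_skew, Derivation.neg_apply, h3, ← neg_smul]
        congr 1
        change -((b m : ℂ) + c * d) = ((-(b m) : ℤ) : ℂ) + -c * d
        push_cast
        ring) hF0 hE0 hv hw hne (k := k) (by
        change -(b ω) = -k
        rw [hk])
    have e1 : ω + k • (-χ) = ω - b ω • χ := by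
      rw [hk, natCast_zsmul, smul_neg, sub_eq_add_neg]
    rw [e1] at h4
    exact fin hω0 h3 h4 h5

end Vale.Agent.P280.H224
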