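import Vale.Agent.P280.H224.Surj
import Vale.Agent.P280.H224.Refl
import Vale.Agent.P280.H939.Flow
import Vale.Agent.P280.H644.Lift

/-! P280: the orbit of a fixed point under a group of type `SL_2`. -/

open DirectSum Vale.Agent.P280.T Vale.Agent.P280.H93

set_option linter.unusedSectionVars false

namespace Vale.Agent.P280.H224

variable {M : Type} [AddCommGroup M] [DecidableEq M] {R : Type} [CommRing R] [Algebra ℂ R]
variable {𝒜 : ℕ × M → Submodule ℂ R}

/-- The coefficients of the exponential of `E` at `y`. -/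
noncomputable def cl (y : R →ₐ[ℂ] ℂ) (E : Derivation ℂ R R) (k : ℕ) : R →ₗ[ℂ] ℂ :=
  ((k.factorial : ℂ)⁻¹) • y.toLinearMap.comp ((E : R →ₗ[ℂ] R) ^ k)

theorem cl_apply (y : R →ₐ[ℂ] ℂ) (E : Derivation ℂ R R) (k : ℕ) (h : R) :
    cl y E k h = ((k.factorial : ℂ)⁻¹) * y ((⇑E)^[k] h) := by
  change ((k.factorial : ℂ)⁻¹) * y (((E : R →ₗ[ℂ] R) ^ k) h) = _
  rw [Module.End.pow_apply]
  rfl

theorem cl_zero (y : R →ₐ[ℂ] ℂ) (E : Derivation ℂ R R) (h : R) : cl y E 0 h = y h := by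
  rw [cl_apply]
  simp

theorem cl_succ (y : R →ₐ[ℂ] ℂ) (E : Derivation ℂ R R) (k : ℕ) (h : R) :
    cl y E k (E h) = ((k : ℂ) + 1) * cl y E (k + 1) h := by
  rw [cl_apply, cl_apply, Function.iterate_succ_apply, Nat.factorial_succ, Nat.cast_mul,
    Nat.cast_succ, mul_inv, ← mul_assoc, ← mul_assoc, mul_inv_cancel₀ (Nat.cast_add_one_ne_zero k),
    one_mul]

theorem cl_mul (y : R →ₐ[ℂ] ℂ) (E : Derivation ℂ R R) (n : ℕ) (x g : R) :
    cl y E n (x * g) =
      ∑ ij ∈ Finset.HasAntidiagonal.antidiagonal n, cl y E ij.1 x * cl y E ij.2 g := by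
  rw [cl_apply, H939.iterate_leibniz, map_sum, Finset.mul_sum]
  refine Finset.sum_congr rfl fun ij hij => ?_
  have hk := Finset.HasAntidiagonal.mem_antidiagonal.1 hij
  rw [map_nsmul, nsmul_eq_mul, map_mul, cl_apply, cl_apply]
  have h1 : (n.choose ij.1 : ℂ) =
      (n.factorial : ℂ) / ((ij.1.factorial : ℂ) * (ij.2.factorial)) := by
    rw [← hk, Nat.cast_add_choose]
  rw [h1]
  have h2 : (n.factorial : ℂ) ≠ 0 := by exact_mod_cast n.factorial_ne_zero
  have h3 : (ij.1.factorial : ℂ) ≠ 0 := by exact_mod_cast ij.1.factorial_ne_zero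
  have h4 : (ij.2.factorial : ℂ) ≠ 0 := by exact_mod_cast ij.2.factorial_ne_zero
  field_simp

theorem iter_mem {χ : M} {E : Derivation ℂ R R} (hE : IsHField 𝒜 χ E) {d : ℕ} {m : M} {h : R}
    (hh : h ∈ 𝒜 (d, m)) (k : ℕ) : (⇑E)^[k] h ∈ 𝒜 (d, m - k • χ) := by
  induction k with
  | zero =>
    rw [zero_smul, sub_zero]
    exact hh
  | succ k ih =>
    rw [Function.iterate_succ_apply', succ_nsmul, ← sub_sub]
    exact hE _ _ _ ih

theorem cl_weight {y : R →ₐ[ℂ] ℂ} {ν a : M} (hy : IsFixed 𝒜 y ν) {E : Derivation ℂ R R}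
    (hE : IsHField 𝒜 a E) {d : ℕ} {m : M} {h : R} (hh : h ∈ 𝒜 (d, m)) {k : ℕ}
    (hne : cl y E k h ≠ 0) : m = d • ν + k • a := by
  rw [cl_apply] at hne
  have h1 := hy _ _ _ (iter_mem hE hh k) (right_ne_zero_of_mul hne)
  rw [← h1]
  abel

/-- The commutator of `F` with the powers of `E`. -/
theorem iter_comm {a : M} {E F : Derivation ℂ R R} (hE : IsHField 𝒜 a E) {b : M →+ ℂ} {c : ℂ}
    (hb : b a = 2)
    (hH : ∀ (d : ℕ) (m : M), ∀ h ∈ 𝒜 (d, m), ⁅F, E⁆ h = (b m + c * d) • h)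
    {d : ℕ} {m : M} {h : R} (hh : h ∈ 𝒜 (d, m)) (k : ℕ) :
    (⇑E)^[k + 1] (F h) = F ((⇑E)^[k + 1] h) -
      (((k : ℂ) + 1) * (b m + c * d - k)) • (⇑E)^[k] h := by
  induction k with
  | zero =>
    have h1 := hH d m h hh
    rw [Derivation.commutator_apply] at h1
    change E (F h) = F (E h) - _ • h
    rw [Nat.cast_zero, zero_add, one_mul, sub_zero, ← h1]
    abel
  | succ k ih =>
    have h1 := hH _ _ _ (iter_mem hE hh (k + 1))
    rw [Derivation.commutator_apply] at h1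
    rw [Function.iterate_succ_apply', ih, map_sub, E.map_smul, ← Function.iterate_succ_apply' E]
    have h2 : E (F ((⇑E)^[k + 1] h)) = F ((⇑E)^[k + 1 + 1] h) -
        (b (m - (k + 1) • a) + c * d) • (⇑E)^[k + 1] h := by
      rw [← h1, Function.iterate_succ_apply' E (k + 1)]
      abel
    rw [h2, sub_sub, ← add_smul]
    congr 2
    rw [map_sub, map_nsmul, hb, nsmul_eq_mul]
    push_cast
    ring

theorem cl_F {y : R →ₐ[ℂ] ℂ} {ν a : M} (hy : IsFixed 𝒜 y ν) {E F : Derivation ℂ R R}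
    (hE : IsHField 𝒜 a E) {b : M →+ ℂ} {c : ℂ} (hb : b a = 2)
    (hH : ∀ (d : ℕ) (m : M), ∀ h ∈ 𝒜 (d, m), ⁅F, E⁆ h = (b m + c * d) • h)
    (hF : ∀ h, y (F h) = 0) {d : ℕ} {m : M} {h : R} (hh : h ∈ 𝒜 (d, m)) (k : ℕ) :
    cl y E (k + 1) (F h) = (d * (-(b ν + c)) - k) * cl y E k h := by
  have h1 : cl y E (k + 1) (F h) = -(b m + c * d - k) * cl y E k h := by
    rw [cl_apply, iter_comm hE hb hH hh, map_sub, hF, zero_sub, map_smul, smul_eq_mul, cl_apply,
      Nat.factorial_succ, Nat.cast_mul, Nat.cast_succ]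
    have h2 : ((k : ℂ) + 1) ≠ 0 := Nat.cast_add_one_ne_zero k
    have h3 : (k.factorial : ℂ) ≠ 0 := by exact_mod_cast k.factorial_ne_zero
    field_simp
  rw [h1]
  by_cases h0 : cl y E k h = 0
  · rw [h0, mul_zero, mul_zero]
  · congr 1
    rw [cl_weight hy hE hh h0, map_add, map_nsmul, map_nsmul, hb, nsmul_eq_mul, nsmul_eq_mul]
    ring

variable [GradedAlgebra 𝒜]

/-- The real parts of the weights are bounded. -/
theorem re_bdd (hX : IsTorusManifold 𝒜) (b : M →+ ℂ) :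
    ∃ K : ℝ, ∀ (d : ℕ) (m : M), ∀ h ∈ 𝒜 (d, m), h ≠ 0 → (b m).re ≤ d * K := by
  obtain ⟨K, hK⟩ := ((finite_weights hX).image fun m => (b m).re).bddAbove
  let w : M →+ ℝ := -(Complex.reAddGroupHom.comp b)
  have hw : ∀ m, w m = -(b m).re := fun m => rfl
  refine ⟨K, fun d m h hh hne => ?_⟩
  have h1 := slope_le hX.gen w (-K) ⊥ (fun m h hh hI => by
    rw [hw]
    have h2 := hK ⟨m, ⟨h, hh, fun h0 => hI ((Submodule.mem_bot R).2 h0)⟩, rfl⟩
    simpa using h2) d m h hh (fun h0 => hne ((Submodule.mem_bot R).1 h0))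
  rw [hw, nsmul_eq_mul] at h1
  linarith

theorem iter_F_eventually (hX : IsTorusManifold 𝒜) {a : M} {F : Derivation ℂ R R}
    (hF : IsHField 𝒜 (-a) F) {b : M →+ ℂ} (hb : b a = 2) {d : ℕ} {m : M} {h : R}
    (hh : h ∈ 𝒜 (d, m)) : ∃ j : ℕ, (⇑F)^[j] h = 0 := by
  obtain ⟨K, hK⟩ := re_bdd hX b
  obtain ⟨j, hj⟩ := exists_nat_gt ((d * K - (b m).re) / 2)
  refine ⟨j, ?_⟩
  by_contra hne
  have h1 := hK _ _ _ (iter_mem hF hh j) hne
  rw [smul_neg, sub_neg_eq_add, map_add, map_nsmul, hb, nsmul_eq_mul, Complex.add_re,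
    Complex.mul_re, Complex.natCast_re, Complex.natCast_im, zero_mul, sub_zero] at h1
  have h2 : ((2 : ℂ)).re = 2 := by simp
  rw [h2] at h1
  linarith

/-- The values `k` with `cl k h ≠ 0` are at most `d` times the degree of the orbit. -/
theorem cl_bound (hX : IsTorusManifold 𝒜) {y : R →ₐ[ℂ] ℂ} {ν a : M} (hy : IsFixed 𝒜 y ν)
    {E F : Derivation ℂ R R} (hE : IsHField 𝒜 a E) (hF' : IsHField 𝒜 (-a) F) {b : M →+ ℂ} {c : ℂ}
    (hb : b a = 2) (hH : ∀ (d : ℕ) (m : M), ∀ h ∈ 𝒜 (d, m), ⁅F, E⁆ h = (b m + c * d) • h)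
    (hF : ∀ h, y (F h) = 0) {d : ℕ} {m : M} {h : R} (hh : h ∈ 𝒜 (d, m)) {k : ℕ}
    (hne : cl y E k h ≠ 0) : ∃ r : ℕ, d * (-(b ν + c)) = (k : ℂ) + r := by
  by_contra hcon
  push Not at hcon
  obtain ⟨J, hJ⟩ := iter_F_eventually hX hF' hb hh
  have key : ∀ j : ℕ, cl y E (k + j) ((⇑F)^[j] h) ≠ 0 := by
    intro j
    induction j with
    | zero => exact hne
    | succ j ih =>
      rw [Function.iterate_succ_apply', ← add_assoc, cl_F hy hE hb hH hF (iter_mem hF' hh j)]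
      refine mul_ne_zero (fun h0 => hcon j ?_) ih
      rw [sub_eq_zero] at h0
      rw [h0]
      push_cast
      rfl
  apply key J
  rw [hJ, map_zero]

open Classical in
/-- The exponent of `t`. -/
noncomputable def kk (ν a : M) (i : ℕ × M) : ℕ :=
  if h : ∃ k : ℕ, i.2 = i.1 • ν + k • a then h.choose else 0

theorem nsmul_inj {a : M} {b : M →+ ℂ} (hb : b a = 2) {k l : ℕ} (h : k • a = l • a) : k = l := by
  have h1 := congrArg b h
  rw [map_nsmul, map_nsmul, hb, nsmul_eq_mul, nsmul_eq_mul] at h1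
  have h2 := mul_right_cancel₀ (two_ne_zero : (2 : ℂ) ≠ 0) h1
  exact_mod_cast h2

theorem kk_eq {a : M} {b : M →+ ℂ} (hb : b a = 2) {ν : M} {d : ℕ} {m : M} {k : ℕ}
    (h : m = d • ν + k • a) : kk ν a (d, m) = k := by
  have hex : ∃ k : ℕ, ((d, m) : ℕ × M).2 = ((d, m) : ℕ × M).1 • ν + k • a := ⟨k, h⟩
  rw [kk, dif_pos hex]
  have h1 : m = d • ν + hex.choose • a := hex.choose_spec
  exact nsmul_inj hb (add_left_cancel (h1.symm.trans h))

/-- The generic point of the orbit. -/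
structure Orb (𝒜 : ℕ × M → Submodule ℂ R) (y z : R →ₐ[ℂ] ℂ) (ν a : M) (E F : Derivation ℂ R R)
    (b : M →+ ℂ) (N : ℕ) : Prop where
  supp : ∀ (d : ℕ) (m : M), ∀ h ∈ 𝒜 (d, m), z h ≠ 0 → ∃ k : ℕ, k ≤ d * N ∧ m = d • ν + k • a
  zy : ∀ (d : ℕ), ∀ h ∈ 𝒜 (d, d • ν), z h = y h
  zE : ∀ (d : ℕ) (m : M), ∀ h ∈ 𝒜 (d, m), z (E h) = ((b m - d * b ν) / 2) * z h
  zF : ∀ (d : ℕ) (m : M), ∀ h ∈ 𝒜 (d, m), z (F h) = (d * N - (b m - d * b ν) / 2) * z h

theorem exists_orb (hX : IsTorusManifold 𝒜) {y : R →ₐ[ℂ] ℂ} (hy0 : ¬ IsVertex 𝒜 y) {ν a : M}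
    (hy : IsFixed 𝒜 y ν) {E F : Derivation ℂ R R} (hE : IsHField 𝒜 a E)
    (hF' : IsHField 𝒜 (-a) F) {b : M →+ ℂ} {c : ℂ} (hb : b a = 2)
    (hH : ∀ (d : ℕ) (m : M), ∀ h ∈ 𝒜 (d, m), ⁅F, E⁆ h = (b m + c * d) • h)
    (hF : ∀ h, y (F h) = 0) :
    ∃ (N : ℕ) (z : R →ₐ[ℂ] ℂ), (N : ℂ) = -(b ν + c) ∧ Orb 𝒜 y z ν a E F b N := by
  obtain ⟨f, hf, hfne⟩ := exists_deg_one_ne hX.gen hy0 hy
  obtain ⟨N, hN⟩ := cl_bound hX hy hE hF' hb hH hF hf (k := 0) (by rwa [cl_zero])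
  have hN' : (N : ℂ) = -(b ν + c) := by
    rw [Nat.cast_one, one_mul, Nat.cast_zero, zero_add] at hN
    exact hN.symm
  have hw : ∀ (i : ℕ × M), ∀ x ∈ 𝒜 i, ∀ k, cl y E k x ≠ 0 → k = kk ν a i := by
    rintro ⟨d, m⟩ x hx k hk
    exact (kk_eq hb (cl_weight hy hE hx hk)).symm
  obtain ⟨z, hz⟩ := exists_algHom 𝒜 (fun i => cl y E (kk ν a i)) (by
      have h1 : kk ν a ((0, 0) : ℕ × M) = 0 := kk_eq hb (by simp)
      change cl y E (kk ν a ((0, 0) : ℕ × M)) 1 = 1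
      rw [h1, cl_zero, map_one]) (by
      intro i j x hx g hg
      change cl y E (kk ν a (i + j)) (x * g) = cl y E (kk ν a i) x * cl y E (kk ν a j) g
      rw [cl_mul]
      by_cases h1 : cl y E (kk ν a i) x = 0
      · rw [h1, zero_mul]
        refine Finset.sum_eq_zero fun ij _ => ?_
        by_cases h2 : cl y E ij.1 x = 0
        · rw [h2, zero_mul]
        · exact absurd h1 (by rw [← hw i x hx _ h2]; exact h2)
      by_cases h3 : cl y E (kk ν a j) g = 0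
      · rw [h3, mul_zero]
        refine Finset.sum_eq_zero fun ij _ => ?_
        by_cases h2 : cl y E ij.2 g = 0
        · rw [h2, mul_zero]
        · exact absurd h3 (by rw [← hw j g hg _ h2]; exact h2)
      have e1 := cl_weight (d := i.1) (m := i.2) hy hE hx h1
      have e2 := cl_weight (d := j.1) (m := j.2) hy hE hg h3
      have e3 : kk ν a (i + j) = kk ν a i + kk ν a j := by
        apply kk_eq (d := (i + j).1) (m := (i + j).2) hb
        rw [Prod.fst_add, Prod.snd_add, e1, e2, add_smul, add_smul]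
        abel
      rw [e3]
      rw [Finset.sum_eq_single (kk ν a i, kk ν a j)]
      · rintro ⟨p, q⟩ hpq hne
        by_cases h2 : cl y E p x = 0
        · rw [h2, zero_mul]
        by_cases h4 : cl y E q g = 0
        · rw [h4, mul_zero]
        exact absurd (Prod.ext (hw i x hx _ h2) (hw j g hg _ h4)) hne
      · intro h
        exact absurd (Finset.HasAntidiagonal.mem_antidiagonal.2
          (rfl : (kk ν a i, kk ν a j).1 + (kk ν a i, kk ν a j).2 = _)) h)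
  have hz' : ∀ (d : ℕ) (m : M), ∀ h ∈ 𝒜 (d, m), ∀ k : ℕ, m = d • ν + k • a →
      z h = cl y E k h := by
    intro d m h hh k hk
    have h1 := hz (d, m) h hh
    rw [kk_eq hb hk] at h1
    exact h1
  have hz0 : ∀ (d : ℕ) (m : M), ∀ h ∈ 𝒜 (d, m), z h ≠ 0 → ∃ k : ℕ, m = d • ν + k • a := by
    intro d m h hh hne
    have h1 := hz (d, m) h hh
    rw [h1] at hne
    exact ⟨_, cl_weight hy hE hh hne⟩
  refine ⟨N, z, hN', ⟨?_, ?_, ?_, ?_⟩⟩
  · intro d m h hh hne
    obtain ⟨k, hk⟩ := hz0 d m h hh hne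
    rw [hz' d m h hh k hk] at hne
    obtain ⟨r, hr⟩ := cl_bound hX hy hE hF' hb hH hF hh hne
    refine ⟨k, ?_, hk⟩
    rw [← hN'] at hr
    have h1 : d * N = k + r := by exact_mod_cast hr
    omega
  · intro d h hh
    rw [hz' d _ h hh 0 (by simp), cl_zero]
  · intro d m h hh
    by_cases hex : ∃ k : ℕ, m = d • ν + k • a
    · obtain ⟨k, hk⟩ := hex
      rw [hz' d m h hh k hk]
      have hQ : (b m - d * b ν) / 2 = k := by
        rw [hk, map_add, map_nsmul, map_nsmul, hb, nsmul_eq_mul, nsmul_eq_mul]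
        ring
      rw [hQ]
      cases k with
      | zero =>
        rw [Nat.cast_zero, zero_mul]
        by_contra hne
        obtain ⟨l, hl⟩ := hz0 _ _ _ (hE d m h hh) hne
        have h1 : (l + 1) • a = 0 • a := by
          rw [hk, sub_eq_iff_eq_add, add_assoc, ← succ_nsmul] at hl
          exact (add_left_cancel hl).symm
        have := nsmul_inj hb h1
        omega
      | succ k =>
        rw [hz' d _ _ (hE d m h hh) k (by rw [hk, succ_nsmul]; abel), cl_succ]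
        push_cast
        rfl
    · have h1 : z h = 0 := by
        by_contra hne
        exact hex (hz0 d m h hh hne)
      rw [h1, mul_zero]
      by_contra hne
      obtain ⟨l, hl⟩ := hz0 _ _ _ (hE d m h hh) hne
      apply hex
      refine ⟨l + 1, ?_⟩
      rw [succ_nsmul, ← add_assoc, ← hl]
      abel
  · intro d m h hh
    have hFm : F h ∈ 𝒜 (d, m + a) := by
      have := hF' d m h hh
      rwa [sub_neg_eq_add] at this
    by_cases hex : ∃ k : ℕ, m = d • ν + k • a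
    · obtain ⟨k, hk⟩ := hex
      rw [hz' d m h hh k hk]
      have hQ : (b m - d * b ν) / 2 = k := by
        rw [hk, map_add, map_nsmul, map_nsmul, hb, nsmul_eq_mul, nsmul_eq_mul]
        ring
      rw [hQ, hz' d _ _ hFm (k + 1) (by rw [hk, succ_nsmul]; abel), cl_F hy hE hb hH hF hh, hN']
    · have h1 : z h = 0 := by
        by_contra hne
        exact hex (hz0 d m h hh hne)
      rw [h1, mul_zero]
      by_contra hne
      obtain ⟨l, hl⟩ := hz0 _ _ _ hFm hne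
      cases l with
      | zero =>
        rw [hz' d _ _ hFm 0 hl, cl_zero, hF] at hne
        exact hne rfl
      | succ l =>
        apply hex
        refine ⟨l, ?_⟩
        rw [succ_nsmul, ← add_assoc] at hl
        exact add_right_cancel hl

end Vale.Agent.P280.H224
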