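import Mathlib

/-! P280: strings for a pair of operators of `sl_2` type. -/

namespace Vale.Agent.P280.H224

variable {V : Type*} [AddCommGroup V] [Module ℂ V]

/-- The string of a lowest vector. -/
theorem string_low {e f : V →ₗ[ℂ] V} {w : V} {K : ℕ} (hw : w ≠ 0) (hf : f w = 0)
    (hc : ∀ i : ℕ, f (e ((e ^ i) w)) - e (f ((e ^ i) w)) = ((K : ℂ) - 2 * i) • (e ^ i) w) :
    ∀ i : ℕ, i ≤ K → (e ^ i) w ≠ 0 := by
  have key : ∀ i : ℕ, f ((e ^ (i + 1)) w) = (((i : ℂ) + 1) * ((K : ℂ) - i)) • (e ^ i) w := by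
    intro i
    induction i with
    | zero =>
      have h := hc 0
      rw [pow_zero, Module.End.one_apply, hf, map_zero, sub_zero] at h
      rw [zero_add, pow_one, pow_zero, Module.End.one_apply, h]
      congr 1
      push_cast
      ring
    | succ i ih =>
      have h := hc (i + 1)
      have e1 : (e ^ (i + 1 + 1)) w = e ((e ^ (i + 1)) w) := by
        rw [pow_succ' e (i + 1)]
        rfl
      have e2 : e ((e ^ i) w) = (e ^ (i + 1)) w := by
        rw [pow_succ' e i]
        rfl
      rw [ih, map_smul, e2, sub_eq_iff_eq_add] at h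
      rw [e1, h, ← add_smul]
      congr 1
      push_cast
      ring
  intro i
  induction i with
  | zero =>
    intro _
    rwa [pow_zero]
  | succ i ih =>
    intro hi h0
    have h := key i
    rw [h0, map_zero] at h
    have h1 := (smul_eq_zero.1 h.symm).resolve_right (ih (by omega))
    rcases mul_eq_zero.1 h1 with h2 | h2
    · have : ((i : ℂ) + 1) ≠ 0 := Nat.cast_add_one_ne_zero i
      exact this h2
    · have h3 : (K : ℂ) = i := sub_eq_zero.1 h2
      have h4 : K = i := by exact_mod_cast h3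
      omega

/-- **Strings.** `P k` is the space of the vectors of weight `k`. -/
theorem string {e f : V →ₗ[ℂ] V} {P : ℤ → V → Prop} (he : ∀ k v, P k v → P (k + 2) (e v))
    (hf : ∀ k v, P k v → P (k - 2) (f v))
    (hc : ∀ k v, P k v → f (e v) - e (f v) = (-(k : ℂ)) • v)
    {B : ℤ} (hB : ∀ k v, P k v → k < B → v = 0) {k : ℕ} {v : V} (hv : P (-k) v) (h0 : v ≠ 0) :
    ∃ N : ℕ, (e ^ (N + k)) ((f ^ N) v) ≠ 0 := by
  classical
  have hfN : ∀ N : ℕ, P (-k - 2 * N) ((f ^ N) v) := by
    intro N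
    induction N with
    | zero => simpa using hv
    | succ N ih =>
      have h1 := hf _ _ ih
      have e1 : (f ^ (N + 1)) v = f ((f ^ N) v) := by
        rw [pow_succ' f N]
        rfl
      rw [e1]
      have e2 : (-(k : ℤ) - 2 * ((N + 1 : ℕ) : ℤ)) = -(k : ℤ) - 2 * (N : ℤ) - 2 := by
        push_cast
        ring
      rw [e2]
      exact h1
  have hex : ∃ N : ℕ, (f ^ N) v = 0 := by
    refine ⟨(-(k : ℤ) - B + 1).toNat, hB _ _ (hfN _) ?_⟩
    have := Int.self_le_toNat (-(k : ℤ) - B + 1)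
    omega
  have hN := Nat.find_spec hex
  have hN0 : Nat.find hex ≠ 0 := by
    intro h
    rw [h, pow_zero] at hN
    exact h0 hN
  obtain ⟨N, hNN⟩ := Nat.exists_eq_succ_of_ne_zero hN0
  have hw : (f ^ N) v ≠ 0 := Nat.find_min hex (by omega)
  have hfw : f ((f ^ N) v) = 0 := by
    rw [hNN, Nat.succ_eq_add_one, pow_succ' f N] at hN
    exact hN
  have heN : ∀ i : ℕ, P (-k - 2 * N + 2 * i) ((e ^ i) ((f ^ N) v)) := by
    intro i
    induction i with
    | zero => simpa using hfN N
    | succ i ih =>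
      have h1 := he _ _ ih
      have e1 : (e ^ (i + 1)) ((f ^ N) v) = e ((e ^ i) ((f ^ N) v)) := by
        rw [pow_succ' e i]
        rfl
      rw [e1]
      have e2 : (-(k : ℤ) - 2 * (N : ℤ) + 2 * ((i + 1 : ℕ) : ℤ)) =
          -(k : ℤ) - 2 * (N : ℤ) + 2 * (i : ℤ) + 2 := by
        push_cast
        ring
      rw [e2]
      exact h1
  refine ⟨N, string_low (K := k + 2 * N) hw hfw (fun i => ?_) (N + k) (by omega)⟩
  rw [hc _ _ (heN i)]
  congr 1
  push_cast
  ring

end Vale.Agent.P280.H224
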