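import Mathlib

/-! P280: the lowering operator is onto negative weight spaces. -/

namespace Vale.Agent.P280.H224

variable {V : Type*} [AddCommGroup V] [Module ℂ V]

/-- The vectors of index `j` which are killed by the `n`-th power of the lowering operator. -/
def Zk (f : ℤ → V →ₗ[ℂ] V) : ℕ → ℤ → V → Prop
  | 0, _, v => v = 0
  | n + 1, j, v => Zk f n (j - 1) (f j v)

theorem zk_aux {e f : ℤ → V →ₗ[ℂ] V} {κ : ℤ} {W : ℤ → Submodule ℂ V}
    (hf : ∀ j, ∀ v ∈ W j, f j v ∈ W (j - 1))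
    (hc : ∀ j, ∀ v ∈ W j, f (j + 1) (e j v) - e (j - 1) (f j v) = (-((κ : ℂ) + 2 * j)) • v)
    (n : ℕ) : ∀ j, ∀ v ∈ W j, Zk f (n + 1) j v →
      Zk f n j (f (j + 1) (e j v) - (((n : ℂ) + 1) * (-((κ : ℂ) + 2 * j) + n)) • v) := by
  induction n with
  | zero =>
    intro j v hv h
    have h1 : f j v = 0 := h
    have h2 := hc j v hv
    rw [h1, map_zero, sub_zero] at h2
    change f (j + 1) (e j v) - _ = 0
    rw [h2, ← sub_smul]
    have h3 : (-((κ : ℂ) + 2 * j) - (((0 : ℕ) : ℂ) + 1) * (-((κ : ℂ) + 2 * j) + ((0 : ℕ) : ℂ))) = 0 := by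
      push_cast
      ring
    rw [h3, zero_smul]
  | succ n ih =>
    intro j v hv h
    have h1 : Zk f (n + 1) (j - 1) (f j v) := h
    have h2 := ih (j - 1) (f j v) (hf j v hv) h1
    have h3 : f j (f (j + 1) (e j v) -
        ((((n + 1 : ℕ) : ℂ) + 1) * (-((κ : ℂ) + 2 * j) + ((n + 1 : ℕ) : ℂ))) • v) =
        f (j - 1 + 1) (e (j - 1) (f j v)) -
          (((n : ℂ) + 1) * (-((κ : ℂ) + 2 * (j - 1 : ℤ)) + n)) • f j v := by
      have h4 := hc j v hv
      rw [sub_eq_iff_eq_add] at h4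
      have h5 : ((((n + 1 : ℕ) : ℂ) + 1) * (-((κ : ℂ) + 2 * j) + ((n + 1 : ℕ) : ℂ))) =
          -((κ : ℂ) + 2 * j) + ((n : ℂ) + 1) * (-((κ : ℂ) + 2 * (j - 1 : ℤ)) + n) := by
        push_cast
        ring
      rw [h4, sub_add_cancel, map_sub, map_add, map_smul, map_smul, h5, add_smul]
      abel
    change Zk f n (j - 1) (f j _)
    rw [h3]
    exact h2

/-- **The lowering operator is onto the spaces of negative weight.** -/
theorem surj {e f : ℤ → V →ₗ[ℂ] V} {κ : ℤ} {W : ℤ → Submodule ℂ V}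
    (he : ∀ j, ∀ v ∈ W j, e j v ∈ W (j + 1)) (hf : ∀ j, ∀ v ∈ W j, f j v ∈ W (j - 1))
    (hc : ∀ j, ∀ v ∈ W j, f (j + 1) (e j v) - e (j - 1) (f j v) = (-((κ : ℂ) + 2 * j)) • v)
    {J : ℤ} (hB : ∀ j, j < J → ∀ v ∈ W j, v = 0) {j : ℤ} (hj : κ + 2 * j < 0) {v : V}
    (hv : v ∈ W j) : ∃ w ∈ W (j + 1), f (j + 1) w = v := by
  have key : ∀ (n : ℕ) (j : ℤ), κ + 2 * j < 0 → ∀ v ∈ W j, Zk f n j v →
      ∃ w ∈ W (j + 1), f (j + 1) w = v := by
    intro n
    induction n with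
    | zero =>
      intro j _ v _ h
      have h1 : v = 0 := h
      exact ⟨0, Submodule.zero_mem _, by rw [h1, map_zero]⟩
    | succ n ih =>
      intro j hj v hv h
      have h1 := zk_aux hf hc n j v hv h
      have hm : f (j + 1) (e j v) ∈ W j := by
        have := hf (j + 1) _ (he j v hv)
        rwa [add_sub_cancel_right] at this
      obtain ⟨w, hw, hw'⟩ := ih j hj _ (Submodule.sub_mem _ hm (Submodule.smul_mem _ _ hv)) h1
      have hne : (((n : ℂ) + 1) * (-((κ : ℂ) + 2 * j) + n)) ≠ 0 := by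
        apply mul_ne_zero (Nat.cast_add_one_ne_zero n)
        intro h0
        have h2 : ((-(κ + 2 * j) + n : ℤ) : ℂ) = 0 := by
          push_cast
          exact h0
        have h3 : (-(κ + 2 * j) + n : ℤ) = 0 := by exact_mod_cast h2
        omega
      refine ⟨(((n : ℂ) + 1) * (-((κ : ℂ) + 2 * j) + n))⁻¹ • (e j v - w),
        Submodule.smul_mem _ _ (Submodule.sub_mem _ (he j v hv) hw), ?_⟩
      rw [map_smul, map_sub, hw', sub_sub_cancel, smul_smul, inv_mul_cancel₀ hne, one_smul]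
  have hz : ∀ (n : ℕ) (j : ℤ), j - n < J → ∀ v ∈ W j, Zk f n j v := by
    intro n
    induction n with
    | zero =>
      intro j hj v hv
      exact hB j (by simpa using hj) v hv
    | succ n ih =>
      intro j hj v hv
      exact ih (j - 1) (by push_cast at hj; omega) _ (hf j v hv)
  refine key (j - J + 1).toNat j hj v hv (hz _ j ?_ v hv)
  have := Int.self_le_toNat (j - J + 1)
  omega

end Vale.Agent.P280.H224
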