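import Vale.Agent.P280.H224.Brk
import Vale.Agent.P280.H939.Fin2
import Vale.Agent.P280.N.M3

/-! P280: the bracket of a field of weight `a` and a field of weight `-a`, when the derivations of
weight zero are only known to be diagonal up to a nilpotent part. -/

open DirectSum Vale.Agent.P280.T Vale.Agent.P280.H93

set_option linter.unusedSectionVars false

namespace Vale.Agent.P280.H224

section lin
variable {V : Type*} [AddCommGroup V] [Module ℂ V]

theorem nil_inj {Z : V →ₗ[ℂ] V} {k : ℂ} (hk : k ≠ 0) {N : ℕ} :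
    ∀ (n : ℕ) (v : V), (Z ^ N) v = 0 → ((Z - k • (1 : V →ₗ[ℂ] V)) ^ n) v = 0 → v = 0 := by
  intro n
  induction n with
  | zero =>
    intro v _ h
    simpa using h
  | succ n ih =>
    intro v h1 h2
    refine ih v h1 ?_
    set w := ((Z - k • (1 : V →ₗ[ℂ] V)) ^ n) v with hw
    have hcomm : Commute (Z ^ N) ((Z - k • (1 : V →ₗ[ℂ] V)) ^ n) := by
      apply Commute.pow_pow
      exact (Commute.refl Z).sub_right ((Commute.one_right Z).smul_right k)
    have hZw : (Z ^ N) w = 0 := by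
      have h3 := LinearMap.congr_fun hcomm.eq v
      rw [Module.End.mul_apply, Module.End.mul_apply, h1, map_zero] at h3
      exact h3
    have h4 : Z w = k • w := by
      rw [pow_succ', Module.End.mul_apply] at h2
      change Z w - k • w = 0 at h2
      exact sub_eq_zero.1 h2
    have h5 : ∀ j : ℕ, (Z ^ j) w = k ^ j • w := by
      intro j
      induction j with
      | zero => simp
      | succ j ihj => rw [pow_succ', Module.End.mul_apply, ihj, map_smul, h4, smul_smul, pow_succ]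
    rw [h5] at hZw
    exact (smul_eq_zero.1 hZw).resolve_left (pow_ne_zero _ hk)

end lin

variable {M : Type} [AddCommGroup M] [DecidableEq M] {R : Type} [CommRing R] [Algebra ℂ R]
variable {𝒜 : ℕ × M → Submodule ℂ R} [GradedAlgebra 𝒜]

theorem nil_deg {d : ℕ} {A : R →ₗ[ℂ] R} (hA : ∀ m, ∀ h ∈ 𝒜 (d, m), ∃ n : ℕ, (A ^ n) h = 0) :
    ∀ x ∈ H939.deg 𝒜 d, ∃ n : ℕ, (A ^ n) x = 0 := by
  intro x hx
  have key : ∀ n k : ℕ, n ≤ k → ∀ x, (A ^ n) x = 0 → (A ^ k) x = 0 := by
    intro n k hnk x hx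
    obtain ⟨j, rfl⟩ := Nat.exists_eq_add_of_le hnk
    rw [add_comm, pow_add, Module.End.mul_apply, hx, map_zero]
  refine Submodule.iSup_induction (motive := fun x => ∃ n : ℕ, (A ^ n) x = 0)
    (fun m : M => 𝒜 (d, m)) hx hA ⟨0, by simp⟩ ?_
  rintro x y ⟨n, hn⟩ ⟨k, hk⟩
  refine ⟨max n k, ?_⟩
  rw [map_add, key n _ (le_max_left _ _) x hn, key k _ (le_max_right _ _) y hk, add_zero]

theorem deg_stable {d : ℕ} {A : R →ₗ[ℂ] R} (hA : ∀ m, ∀ h ∈ 𝒜 (d, m), A h ∈ H939.deg 𝒜 d) :
    ∀ x ∈ H939.deg 𝒜 d, A x ∈ H939.deg 𝒜 d := by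
  intro x hx
  refine Submodule.iSup_induction (motive := fun x => A x ∈ H939.deg 𝒜 d)
    (fun m : M => 𝒜 (d, m)) hx hA (by rw [map_zero]; exact Submodule.zero_mem _) ?_
  intro x y h1 h2
  rw [map_add]
  exact Submodule.add_mem _ h1 h2

theorem mem_deg {d : ℕ} {m : M} {h : R} (hh : h ∈ 𝒜 (d, m)) : h ∈ H939.deg 𝒜 d :=
  le_iSup (fun m : M => 𝒜 (d, m)) m hh

/-- The semisimple part. -/
noncomputable def hsOp (𝒜 : ℕ × M → Submodule ℂ R) [GradedAlgebra 𝒜] (α : ℂ) (β : M →+ ℂ) :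
    R →ₗ[ℂ] R := H644.tw 𝒜 fun i => ((i.1 : ℂ) * α + β i.2) • LinearMap.id

theorem hsOp_mem {α : ℂ} {β : M →+ ℂ} {d : ℕ} {m : M} {h : R} (hh : h ∈ 𝒜 (d, m)) :
    hsOp 𝒜 α β h = ((d : ℂ) * α + β m) • h := by
  rw [hsOp, H644.tw_mem 𝒜 _ hh]
  rfl

/-- Commutation of the nilpotent part with a field. -/
theorem zcomm {a : M} {E D : Derivation ℂ R R} (hE : IsHField 𝒜 a E) (hE0 : E ≠ 0) {α : ℂ}
    {β : M →+ ℂ} (hnil : ∀ (d : ℕ) (m : M), ∀ h ∈ 𝒜 (d, m), ∃ n : ℕ,
      (((D : R →ₗ[ℂ] R) - hsOp 𝒜 α β) ^ n) h = 0)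
    {κ : ℂ} (hκ : ∀ h, ⁅D, E⁆ h = κ • E h) :
    ∀ h, ((D : R →ₗ[ℂ] R) - hsOp 𝒜 α β) (E h) = E (((D : R →ₗ[ℂ] R) - hsOp 𝒜 α β) h) := by
  set Z : R →ₗ[ℂ] R := (D : R →ₗ[ℂ] R) - hsOp 𝒜 α β with hZ
  set k : ℂ := κ + β a with hk
  have hrel : ∀ h, E (Z h) = (Z - k • (1 : R →ₗ[ℂ] R)) (E h) := by
    have key : (E : R →ₗ[ℂ] R).comp Z = (Z - k • (1 : R →ₗ[ℂ] R)).comp (E : R →ₗ[ℂ] R) := by
      apply linearMap_ext_graded 𝒜
      rintro ⟨d, m⟩ h hh
      have h1 := hκ h
      rw [Derivation.commutator_apply] at h1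
      change E (D h - hsOp 𝒜 α β h) = D (E h) - hsOp 𝒜 α β (E h) - k • E h
      rw [hsOp_mem hh, hsOp_mem (hE d m h hh), map_sub, E.map_smul, hk, map_sub]
      have h2 : D (E h) = κ • E h + E (D h) := by
        rw [← h1]
        abel
      rw [h2]
      module
    intro h
    exact LinearMap.congr_fun key h
  have hk0 : k = 0 := by
    by_contra hne
    apply hE0
    have key : (E : R →ₗ[ℂ] R) = 0 := by
      apply linearMap_ext_graded 𝒜
      rintro ⟨d, m⟩ h hh
      change E h = 0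
      obtain ⟨n, hn⟩ := hnil d m h hh
      obtain ⟨N, hN⟩ := hnil d _ _ (hE d m h hh)
      refine nil_inj hne n (E h) hN ?_
      have h3 : ∀ (n : ℕ) (x : R), ((Z - k • (1 : R →ₗ[ℂ] R)) ^ n) (E x) = E ((Z ^ n) x) := by
        intro n
        induction n with
        | zero => intro x; rfl
        | succ n ih =>
          intro x
          rw [pow_succ, Module.End.mul_apply, ← hrel, ih, pow_succ, Module.End.mul_apply]
      rw [h3, hn, map_zero]
    ext x
    exact LinearMap.congr_fun key x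
  intro h
  rw [hrel, hk0, zero_smul, sub_zero]

/-- **The two cases.** -/
theorem weak_cases (hX : IsTorusManifold 𝒜) {a : M} {E F : Derivation ℂ R R}
    (hE : IsHField 𝒜 a E) (hF : IsHField 𝒜 (-a) F) {l : M →+ ℤ} (hl : 0 < l a) {α : ℂ}
    {β : M →+ ℂ}
    (hT : ∀ (d : ℕ) (m : M), ∀ h ∈ 𝒜 (d, m), ∃ n : ℕ,
      (fun x : R => ⁅F, E⁆ x - ((d : ℂ) * α + β m) • x)^[n] h = 0)
    {κ κ' : ℂ} (hκ : ∀ h, ⁅⁅F, E⁆, E⁆ h = κ • E h) (hκ' : ∀ h, ⁅⁅F, E⁆, F⁆ h = κ' • F h)
    (hE0 : E ≠ 0) (hF0 : F ≠ 0) :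
    (β a ≠ 0 ∧ ∀ (d : ℕ) (m : M), ∀ h ∈ 𝒜 (d, m), ⁅F, E⁆ h = ((d : ℂ) * α + β m) • h) ∨
      (β a = 0 ∧ (∀ (d : ℕ) (m : M), ∀ h ∈ 𝒜 (d, m), ∃ n : ℕ, (⇑⁅F, E⁆)^[n] h = 0) ∧
        ∀ h, ⁅F, E⁆ (E h) = E (⁅F, E⁆ h)) := by
  set Z : R →ₗ[ℂ] R := ((⁅F, E⁆ : Derivation ℂ R R) : R →ₗ[ℂ] R) - hsOp 𝒜 α β with hZ
  have hZv : ∀ h, Z h = ⁅F, E⁆ h - hsOp 𝒜 α β h := fun h => rfl
  have hHm : ∀ (d : ℕ) (m : M), ∀ h ∈ 𝒜 (d, m), ⁅F, E⁆ h ∈ 𝒜 (d, m) := by
    intro d m h hh
    rw [Derivation.commutator_apply]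
    have h1 := hF _ _ _ (hE d m h hh)
    have h2 := hE _ _ _ (hF d m h hh)
    rw [sub_neg_eq_add, sub_add_cancel] at h1
    rw [sub_neg_eq_add, add_sub_cancel_right] at h2
    exact Submodule.sub_mem _ h1 h2
  have hZm : ∀ (d : ℕ) (m : M), ∀ h ∈ 𝒜 (d, m), Z h ∈ 𝒜 (d, m) := by
    intro d m h hh
    rw [hZv, hsOp_mem hh]
    exact Submodule.sub_mem _ (hHm d m h hh) (Submodule.smul_mem _ _ hh)
  have hZpm : ∀ (d : ℕ) (m : M), ∀ h ∈ 𝒜 (d, m), ∀ n : ℕ, (Z ^ n) h ∈ 𝒜 (d, m) := by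
    intro d m h hh n
    induction n with
    | zero => exact hh
    | succ n ih =>
      rw [pow_succ', Module.End.mul_apply]
      exact hZm _ _ _ ih
  have hnil : ∀ (d : ℕ) (m : M), ∀ h ∈ 𝒜 (d, m), ∃ n : ℕ, (Z ^ n) h = 0 := by
    intro d m h hh
    obtain ⟨n, hn⟩ := hT d m h hh
    refine ⟨n, ?_⟩
    have h1 : ∀ n : ℕ, (fun x : R => ⁅F, E⁆ x - ((d : ℂ) * α + β m) • x)^[n] h = (Z ^ n) h := by
      intro n
      induction n with
      | zero => rfl
      | succ n ih =>
        rw [Function.iterate_succ_apply', ih, pow_succ', Module.End.mul_apply, hZv,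
          hsOp_mem (hZpm d m h hh n)]
    rw [← h1, hn]
  have hZE := zcomm hE hE0 hnil hκ
  have hZF := zcomm hF hF0 hnil hκ'
  rw [← hZ] at hZE hZF
  -- the eigenvalues
  let b : M →+ ℂ := (AddMonoidHom.mulLeft (2 / (l a : ℂ))).comp ((Int.castAddHom ℂ).comp l)
  have hla : (l a : ℂ) ≠ 0 := by exact_mod_cast hl.ne'
  have hb : b a = 2 := by
    change 2 / (l a : ℂ) * (l a : ℂ) = 2
    field_simp
  have heig : ∀ (d : ℕ) (m : M), ∀ h ∈ 𝒜 (d, m), h ≠ 0 →
      ∃ n : ℤ, (d : ℂ) * α + β m = n * (β a / 2) := by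
    intro d m h hh hne
    classical
    obtain ⟨J, hJ, hJ'⟩ : ∃ j : ℕ, (Z ^ j) h ≠ 0 ∧ Z ((Z ^ j) h) = 0 := by
      have hex := hnil d m h hh
      have h1 := Nat.find_spec hex
      have h2 : Nat.find hex ≠ 0 := by
        intro h3
        rw [h3] at h1
        exact hne h1
      obtain ⟨j, hj⟩ := Nat.exists_eq_succ_of_ne_zero h2
      refine ⟨j, Nat.find_min hex (by omega), ?_⟩
      rw [hj, Nat.succ_eq_add_one, pow_succ', Module.End.mul_apply] at h1
      exact h1
    refine eigen_string hX hE hF hb (hZpm d m h hh J) hJ fun j k => ?_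
    have h1 : ∀ j : ℕ, Z ((⇑F)^[j] ((Z ^ J) h)) = 0 := by
      intro j
      induction j with
      | zero => exact hJ'
      | succ j ih => rw [Function.iterate_succ_apply', hZF, ih, map_zero]
    have h2 : ∀ k : ℕ, Z ((⇑E)^[k] ((⇑F)^[j] ((Z ^ J) h))) = 0 := by
      intro k
      induction k with
      | zero => exact h1 j
      | succ k ih => rw [Function.iterate_succ_apply', hZE, ih, map_zero]
    have h3 := h2 k
    have h4 : (⇑E)^[k] ((⇑F)^[j] ((Z ^ J) h)) ∈ 𝒜 (d, m + j • a - k • a) := by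
      have := iter_mem hF (hZpm d m h hh J) j
      rw [smul_neg, sub_neg_eq_add] at this
      exact iter_mem hE this k
    rw [hZv, hsOp_mem h4, sub_eq_zero] at h3
    exact h3
  by_cases hβ : β a = 0
  · right
    have hHZ : ∀ h, ⁅F, E⁆ h = Z h := by
      have key : hsOp 𝒜 α β = 0 := by
        apply linearMap_ext_graded 𝒜
        rintro ⟨d, m⟩ h hh
        rw [hsOp_mem hh, LinearMap.zero_apply]
        by_cases hne : h = 0
        · rw [hne, smul_zero]
        · obtain ⟨n, hn⟩ := heig d m h hh hne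
          rw [hn, hβ, zero_div, mul_zero, zero_smul]
      intro h
      rw [hZv, key, LinearMap.zero_apply, sub_zero]
    refine ⟨hβ, fun d m h hh => ?_, fun h => by rw [hHZ, hHZ, hZE]⟩
    obtain ⟨n, hn⟩ := hnil d m h hh
    refine ⟨n, ?_⟩
    have h1 : ∀ n : ℕ, (⇑⁅F, E⁆)^[n] h = (Z ^ n) h := by
      intro n
      induction n with
      | zero => rfl
      | succ n ih => rw [Function.iterate_succ_apply', ih, pow_succ', Module.End.mul_apply, hHZ]
    rw [h1, hn]
  · left
    refine ⟨hβ, ?_⟩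
    have hZ0 : ∀ (d : ℕ) (m : M), ∀ h ∈ 𝒜 (d, m), Z h = 0 := by
      intro d m h hh
      have hfin := H939.finite_deg hX d
      have sE := deg_stable (𝒜 := 𝒜) (d := d) (A := (E : R →ₗ[ℂ] R))
        (fun m h hh => mem_deg (hE d m h hh))
      have sF := deg_stable (𝒜 := 𝒜) (d := d) (A := (F : R →ₗ[ℂ] R))
        (fun m h hh => mem_deg (hF d m h hh))
      have sH := deg_stable (𝒜 := 𝒜) (d := d) (A := hsOp 𝒜 α β)
        (fun m h hh => by rw [hsOp_mem hh]; exact Submodule.smul_mem _ _ (mem_deg hh))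
      have sZ := deg_stable (𝒜 := 𝒜) (d := d) (A := Z) (fun m h hh => mem_deg (hZm d m h hh))
      set c : ℂ := 2 / β a with hc
      have hc0 : c ≠ 0 := div_ne_zero two_ne_zero hβ
      have hcb : c * β a = 2 := by
        rw [hc]
        field_simp
      -- the relations
      have r1 : ∀ x, F (E x) - E (F x) = hsOp 𝒜 α β x + Z x := by
        intro x
        rw [hZv, Derivation.commutator_apply]
        abel
      have r2 : ∀ x, hsOp 𝒜 α β (F x) - F (hsOp 𝒜 α β x) = (β a) • F x := by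
        have key : (hsOp 𝒜 α β).comp (F : R →ₗ[ℂ] R) - (F : R →ₗ[ℂ] R).comp (hsOp 𝒜 α β) =
            (β a) • (F : R →ₗ[ℂ] R) := by
          apply linearMap_ext_graded 𝒜
          rintro ⟨d, m⟩ h hh
          change hsOp 𝒜 α β (F h) - F (hsOp 𝒜 α β h) = (β a) • F h
          rw [hsOp_mem hh, hsOp_mem (hF d m h hh), F.map_smul, map_sub, map_neg]
          module
        intro x
        exact LinearMap.congr_fun key x
      have r3 : ∀ x, hsOp 𝒜 α β (E x) - E (hsOp 𝒜 α β x) = -((β a) • E x) := by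
        have key : (hsOp 𝒜 α β).comp (E : R →ₗ[ℂ] R) - (E : R →ₗ[ℂ] R).comp (hsOp 𝒜 α β) =
            -((β a) • (E : R →ₗ[ℂ] R)) := by
          apply linearMap_ext_graded 𝒜
          rintro ⟨d, m⟩ h hh
          change hsOp 𝒜 α β (E h) - E (hsOp 𝒜 α β h) = -((β a) • E h)
          rw [hsOp_mem hh, hsOp_mem (hE d m h hh), E.map_smul, map_sub]
          module
        intro x
        exact LinearMap.congr_fun key x
      have r4 : ∀ x, Z (hsOp 𝒜 α β x) = hsOp 𝒜 α β (Z x) := by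
        have key : Z.comp (hsOp 𝒜 α β) = (hsOp 𝒜 α β).comp Z := by
          apply linearMap_ext_graded 𝒜
          rintro ⟨d, m⟩ h hh
          change Z (hsOp 𝒜 α β h) = hsOp 𝒜 α β (Z h)
          rw [hsOp_mem hh, hsOp_mem (hZm d m h hh), map_smul]
        intro x
        exact LinearMap.congr_fun key x
      -- the restrictions
      let eV : Module.End ℂ (H939.deg 𝒜 d) := (F : R →ₗ[ℂ] R).restrict sF
      let fV : Module.End ℂ (H939.deg 𝒜 d) := c • (E : R →ₗ[ℂ] R).restrict sE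
      let hV : Module.End ℂ (H939.deg 𝒜 d) := c • (hsOp 𝒜 α β).restrict sH
      let zV : Module.End ℂ (H939.deg 𝒜 d) := c • Z.restrict sZ
      have ce : ∀ x : H939.deg 𝒜 d, ((eV x : H939.deg 𝒜 d) : R) = F x := fun x => rfl
      have cf : ∀ x : H939.deg 𝒜 d, ((fV x : H939.deg 𝒜 d) : R) = c • E x := fun x => rfl
      have ch : ∀ x : H939.deg 𝒜 d, ((hV x : H939.deg 𝒜 d) : R) = c • hsOp 𝒜 α β x :=
        fun x => rfl
      have cz : ∀ x : H939.deg 𝒜 d, ((zV x : H939.deg 𝒜 d) : R) = c • Z x := fun x => rfl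
      have nile : IsNilpotent eV := by
        rw [Module.End.isNilpotent_iff_of_finite]
        intro x
        obtain ⟨n, hn⟩ := nil_deg (𝒜 := 𝒜) (d := d) (A := (F : R →ₗ[ℂ] R)) (fun m h hh => by
          obtain ⟨n, hn⟩ := iter_F_eventually hX hF hb hh
          refine ⟨n, ?_⟩
          rw [Module.End.pow_apply]
          exact hn) x x.2
        refine ⟨n, Subtype.ext ?_⟩
        have h1 : ∀ n : ℕ, (((eV ^ n) x : H939.deg 𝒜 d) : R) = ((F : R →ₗ[ℂ] R) ^ n) x := by
          intro n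
          induction n with
          | zero => rfl
          | succ n ih =>
            rw [pow_succ', Module.End.mul_apply, ce, ih, pow_succ', Module.End.mul_apply]
            rfl
        rw [h1, hn]
        rfl
      have nilz : IsNilpotent zV := by
        rw [Module.End.isNilpotent_iff_of_finite]
        intro x
        obtain ⟨n, hn⟩ := nil_deg (𝒜 := 𝒜) (d := d) (A := Z) (fun m h hh => hnil d m h hh) x x.2
        refine ⟨n, Subtype.ext ?_⟩
        have h1 : ∀ n : ℕ, (((zV ^ n) x : H939.deg 𝒜 d) : R) = c ^ n • (Z ^ n) x := by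
          intro n
          induction n with
          | zero => simp
          | succ n ih =>
            rw [pow_succ', Module.End.mul_apply, cz, ih, map_smul, smul_smul, pow_succ' Z,
              Module.End.mul_apply, pow_succ']
        rw [h1, hn, smul_zero]
        rfl
      have hz := N.sl2_central_nilpotent eV fV hV zV nile nilz
        (by
          ext x
          rw [LinearMap.sub_apply, LinearMap.add_apply, Module.End.mul_apply,
            Module.End.mul_apply, Submodule.coe_sub, Submodule.coe_add, ce, cf, cf, ce, ch, cz,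
            F.map_smul, ← smul_sub, ← smul_add, r1])
        (by
          ext x
          rw [LinearMap.sub_apply, LinearMap.smul_apply, Module.End.mul_apply,
            Module.End.mul_apply, Submodule.coe_sub, Submodule.coe_smul, ce, ch, ch, ce,
            F.map_smul, ← smul_sub, r2, smul_smul, hcb])
        (by
          ext x
          rw [LinearMap.sub_apply, LinearMap.neg_apply, LinearMap.smul_apply,
            Module.End.mul_apply, Module.End.mul_apply, Submodule.coe_sub, Submodule.coe_neg,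
            Submodule.coe_smul, cf, ch, ch, cf, map_smul, E.map_smul, ← smul_sub, ← smul_sub, r3,
            smul_neg, smul_neg, smul_smul, smul_smul, smul_smul, mul_assoc c c, hcb, mul_comm c 2])
        (by
          ext x
          rw [Module.End.mul_apply, Module.End.mul_apply, ce, cz, cz, ce, F.map_smul, hZF])
        (by
          ext x
          rw [Module.End.mul_apply, Module.End.mul_apply, cf, cz, cz, cf, map_smul, E.map_smul,
            hZE])
        (by
          ext x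
          rw [Module.End.mul_apply, Module.End.mul_apply, ch, cz, cz, ch, map_smul, map_smul, r4])
        (by
          rw [eq_top_iff]
          rintro ⟨x, hx⟩ -
          refine Submodule.iSup_induction' (fun m : M => 𝒜 (d, m))
            (motive := fun x hx => (⟨x, hx⟩ : H939.deg 𝒜 d) ∈
              ⨆ μ : ℂ, Module.End.eigenspace hV μ) ?_ ?_ ?_ hx
          · intro m h hh
            refine Submodule.mem_iSup_of_mem (c * ((d : ℂ) * α + β m)) ?_
            rw [Module.End.mem_eigenspace_iff]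
            apply Subtype.ext
            rw [ch, hsOp_mem hh, smul_smul]
            rfl
          · exact Submodule.zero_mem _
          · intro x y hx hy h1 h2
            exact Submodule.add_mem _ h1 h2)
      have h1 := congrArg (fun A : Module.End ℂ (H939.deg 𝒜 d) =>
        ((A ⟨h, mem_deg hh⟩ : H939.deg 𝒜 d) : R)) hz
      change c • Z h = 0 at h1
      exact (smul_eq_zero.1 h1).resolve_left hc0
    intro d m h hh
    have h1 := hZ0 d m h hh
    rw [hZv, hsOp_mem hh, sub_eq_zero] at h1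
    exact h1

end Vale.Agent.P280.H224
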